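import Mathlib

/-!
# P262: the Euclidean Steinitz constant.
-/

namespace Vale.Agent.P262

open scoped BigOperators

/-- `max_{0 ≤ k ≤ N} ‖∑_{i < k} v (π i)‖`. -/
noncomputable def prefixMax {d N : ℕ} (v : Fin N → EuclideanSpace ℝ (Fin d)) (π : Equiv.Perm (Fin N)) : ℝ :=
  ⨆ k : Fin (N + 1), ‖∑ i ∈ Finset.univ.filter (fun i : Fin N => (i : ℕ) < (k : ℕ)), v (π i)‖

/-- `β(v_1, …, v_N)`: the minimum over all orderings of `prefixMax`. -/
noncomputable def beta {d N : ℕ} (v : Fin N → EuclideanSpace ℝ (Fin d)) : ℝ :=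
  ⨅ π : Equiv.Perm (Fin N), prefixMax v π

/-- The set of all values `β(v_1, …, v_N)` over finite zero-sum families in the Euclidean unit ball of `ℝ^d`. -/
def betaSet (d : ℕ) : Set ℝ :=
  {x | ∃ (N : ℕ) (v : Fin N → EuclideanSpace ℝ (Fin d)), (∀ i, ‖v i‖ ≤ 1) ∧ ∑ i, v i = 0 ∧ x = beta v}

/-- The Euclidean Steinitz constant `S_2(d)`. -/
noncomputable def S2 (d : ℕ) : ℝ := sSup (betaSet d)

end Vale.Agent.P262
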