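import Mathlib
import Vale.Agent.P262.SteinitzDefs

/-!
# P262: constants of the multiscale argument (see `PROOF.md`).
-/

namespace Vale.Agent.P262

open scoped BigOperators

/-- `d ^ 2 + d + 1`, the dimension of the augmented space. -/
noncomputable def Mr (d : ℕ) : ℝ := (d : ℝ) ^ 2 + d + 1

/-- Bound on the fast coordinates. -/
noncomputable def Lf (d : ℕ) : ℝ := 7 + 4 * Real.log (10 * Mr d)

/-- Energy threshold between fast and slow coordinates. -/
noncomputable def KK (d : ℕ) : ℝ := 32 * (Lf d) ^ 2 * (d : ℝ) ^ 2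

/-- Bound on the potential of the window coordinates. -/
noncomputable def ZZ (d : ℕ) : ℝ := 4 * (d : ℝ) * Real.exp (Lf d / 4)

/-- Bound on the weighted slow energy. -/
noncomputable def Wm (d : ℕ) : ℝ := 30 * (d : ℝ)

/-- Size bound of a slow coordinate at age zero. -/
noncomputable def tau0 (d : ℕ) : ℝ := Real.sqrt (Wm d * KK d)

/-- Number of window levels. -/
noncomputable def nw (d : ℕ) : ℕ := ⌈5 * Real.log (tau0 d)⌉₊

/-- Bound on window coordinates. -/
noncomputable def Lw (d : ℕ) : ℝ := 4 * Real.log (ZZ d * 64 ^ (nw d))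

/-- Final coordinatewise bound. -/
noncomputable def Lam (d : ℕ) : ℝ := Lw d + 5 * Lf d + 13

/-- Package C1: `Lam d = O (1 + log d)`. -/
def LamStatement : Prop := ∃ C : ℝ, 0 < C ∧ ∀ d : ℕ, 1 ≤ d → Lam d ≤ C * (1 + Real.log d)

/-- Package B (being proved by helper21): the coordinatewise theorem. -/
def CoreStatement : Prop :=
  ∀ (d : ℕ), 1 ≤ d → ∀ {ι : Type} [Fintype ι] [DecidableEq ι] (v : ι → Fin d → ℝ),
    (∀ i, ∑ j, (v i j) ^ 2 ≤ 1) → ∀ α : Fin d → ℝ,
    (∀ j k, ∑ i, v i j * v i k = if j = k then α j else 0) → (∀ j, ∑ i, v i j = 0) →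
    ∃ L : List ι, L.Nodup ∧ (∀ i, i ∈ L) ∧ ∀ m : ℕ, ∀ j, |((L.take m).map (fun i => v i j)).sum| ≤ Lam d

/-- Package C2: the final statement (to be proved from `CoreStatement` and `LamStatement`; the lower bound is the
explicit family `e_1, …, e_d` and `d` copies of `-(1/d) ∑ e_i` from the problem file). -/
def FinalStatement : Prop :=
  ∃ c C : ℝ, 0 < c ∧ 0 < C ∧ ∀ d : ℕ, 1 ≤ d →
    BddAbove (betaSet d) ∧ c * Real.sqrt d ≤ S2 d ∧ S2 d ≤ C * Real.sqrt d * (1 + Real.log d)

end Vale.Agent.P262
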