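import Mathlib
import Vale.Agent.P262.Defs

namespace Vale.Agent.P262

open scoped BigOperators

lemma Mr_ge (d : ℕ) (hd : 1 ≤ d) : (3 : ℝ) ≤ Mr d := by
  have h : (1 : ℝ) ≤ d := by exact_mod_cast hd
  unfold Mr
  nlinarith

lemma log_thirty : (13 / 4 : ℝ) ≤ Real.log 30 := by
  rw [Real.le_log_iff_exp_le (by norm_num)]
  have h1 : Real.exp (13 / 4) ^ 4 ≤ (30 : ℝ) ^ 4 := by
    rw [← Real.exp_nat_mul]
    have h2 : Real.exp ((4 : ℕ) * (13 / 4)) = Real.exp 1 ^ 13 := by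
      rw [← Real.exp_nat_mul]
      congr 1
      norm_num
    rw [h2]
    have h3 := Real.exp_one_lt_d9.le
    have h4 : Real.exp 1 ^ 13 ≤ (2.7182818286 : ℝ) ^ 13 := by
      gcongr
    refine h4.trans ?_
    norm_num
  exact le_of_pow_le_pow_left₀ (by norm_num) (by norm_num) h1

lemma Lf_ge (d : ℕ) (hd : 1 ≤ d) : (20 : ℝ) ≤ Lf d := by
  have h := Mr_ge d hd
  have h1 : Real.log 30 ≤ Real.log (10 * Mr d) := by
    apply Real.log_le_log (by norm_num)
    linarith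
  have h2 := log_thirty
  unfold Lf
  linarith

lemma eight_log_five : 8 * Real.log 5 ≤ 13 := by
  have h0 : Real.log 5 ≤ 13 / 8 := by
    rw [Real.log_le_iff_le_exp (by norm_num)]
    have h1 : (5 : ℝ) ^ 8 ≤ Real.exp (13 / 8) ^ 8 := by
      rw [← Real.exp_nat_mul]
      have h2 : Real.exp ((8 : ℕ) * (13 / 8)) = Real.exp 1 ^ 13 := by
        rw [← Real.exp_nat_mul]
        congr 1
        norm_num
      rw [h2]
      have h3 := Real.exp_one_gt_d9.le
      have h4 : (2.7182818283 : ℝ) ^ 13 ≤ Real.exp 1 ^ 13 := by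
        gcongr
      refine le_trans ?_ h4
      norm_num
    exact le_of_pow_le_pow_left₀ (by norm_num) (Real.exp_pos _).le h1
  linarith

lemma exp_eighth : Real.exp (1 / 8) ≤ 5 / 4 := by
  have h1 : Real.exp (1 / 8) ^ 8 ≤ (5 / 4 : ℝ) ^ 8 := by
    rw [← Real.exp_nat_mul]
    have h2 : Real.exp ((8 : ℕ) * (1 / 8)) = Real.exp 1 := by
      congr 1
      norm_num
    rw [h2]
    have h3 := Real.exp_one_lt_d9.le
    refine h3.trans ?_
    norm_num
  exact le_of_pow_le_pow_left₀ (by norm_num) (by norm_num) h1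

/-- `exp (1/8) * exp (13/8) * 5 ≤ 32`. -/
lemma exp_seven_fourths : Real.exp (7 / 4) * 5 ≤ 32 := by
  have h1 : Real.exp (7 / 4) ^ 4 ≤ (32 / 5 : ℝ) ^ 4 := by
    rw [← Real.exp_nat_mul]
    have h2 : Real.exp ((4 : ℕ) * (7 / 4)) = Real.exp 1 ^ 7 := by
      rw [← Real.exp_nat_mul]
      congr 1
      norm_num
    rw [h2]
    have h3 := Real.exp_one_lt_d9.le
    have h4 : Real.exp 1 ^ 7 ≤ (2.7182818286 : ℝ) ^ 7 := by
      gcongr
    refine h4.trans ?_
    norm_num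
  have := le_of_pow_le_pow_left₀ (by norm_num) (by norm_num) h1
  linarith

lemma KK_pos (d : ℕ) (hd : 1 ≤ d) : 0 < KK d := by
  have h : (1 : ℝ) ≤ d := by exact_mod_cast hd
  have h1 := Lf_ge d hd
  unfold KK
  positivity

lemma KK_ge (d : ℕ) (hd : 1 ≤ d) : 1 ≤ KK d := by
  have h : (1 : ℝ) ≤ d := by exact_mod_cast hd
  have h1 := Lf_ge d hd
  unfold KK
  have h2 : (1 : ℝ) ≤ (d : ℝ) ^ 2 := by nlinarith
  have h3 : (1 : ℝ) ≤ (Lf d) ^ 2 := by nlinarith
  nlinarith [mul_le_mul h3 h2 (by norm_num) (by positivity)]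

lemma ZZ_pos (d : ℕ) (hd : 1 ≤ d) : 0 < ZZ d := by
  have h : (1 : ℝ) ≤ d := by exact_mod_cast hd
  unfold ZZ
  positivity

lemma Wm_pos (d : ℕ) (hd : 1 ≤ d) : 0 < Wm d := by
  have h : (1 : ℝ) ≤ d := by exact_mod_cast hd
  unfold Wm
  positivity

/-- the fresh noise bound: `4 log (10 M) = Lf - 7`. -/
lemma lamD_eq (d : ℕ) : 4 * Real.log (10 * Mr d) = Lf d - 7 := by
  unfold Lf; ring

end Vale.Agent.P262
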