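import Mathlib
import Vale.Agent.P262.Defs
import Vale.Agent.P262.Consts

namespace Vale.Agent.P262

open scoped BigOperators

lemma log_thirty_le : Real.log 30 ≤ 7 / 2 := by
  have h1 : Real.log 30 ≤ Real.log (2 ^ 5) := Real.log_le_log (by norm_num) (by norm_num)
  rw [Real.log_pow] at h1
  have h2 := Real.log_two_lt_d9
  push_cast at h1
  linarith

lemma log_thirtytwo_le : Real.log 32 ≤ 7 / 2 := by
  have h1 : Real.log 32 = Real.log (2 ^ 5) := by norm_num
  rw [Real.log_pow] at h1
  have h2 := Real.log_two_lt_d9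
  push_cast at h1
  linarith

lemma log_four_le : Real.log 4 ≤ 7 / 5 := by
  have h1 : Real.log 4 = Real.log (2 ^ 2) := by norm_num
  rw [Real.log_pow] at h1
  have h2 := Real.log_two_lt_d9
  push_cast at h1
  linarith

lemma log_sixtyfour_le : Real.log 64 ≤ 21 / 5 := by
  have h1 : Real.log 64 = Real.log (2 ^ 6) := by norm_num
  rw [Real.log_pow] at h1
  have h2 := Real.log_two_lt_d9
  push_cast at h1
  linarith

lemma log_sixtyfour_nonneg : 0 ≤ Real.log 64 := Real.log_nonneg (by norm_num)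

lemma logd_nonneg (d : ℕ) (hd : 1 ≤ d) : 0 ≤ Real.log d := Real.log_nonneg (by exact_mod_cast hd)

lemma Lf_le (d : ℕ) (hd : 1 ≤ d) : Lf d ≤ 21 + 8 * Real.log d := by
  have h : (1 : ℝ) ≤ d := by exact_mod_cast hd
  have h1 : Real.log (10 * Mr d) ≤ Real.log (30 * (d : ℝ) ^ 2) := by
    apply Real.log_le_log
    · have := Mr_ge d hd
      linarith
    · unfold Mr
      nlinarith
  have h3 : Real.log (30 * (d : ℝ) ^ 2) = Real.log 30 + 2 * Real.log d := by
    rw [Real.log_mul (by norm_num) (by positivity), Real.log_pow]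
    push_cast
    ring
  rw [h3] at h1
  have h2 := log_thirty_le
  unfold Lf
  linarith

lemma log_KK_le (d : ℕ) (hd : 1 ≤ d) : Real.log (KK d) ≤ 7 / 2 + 2 * (21 + 8 * Real.log d) + 2 * Real.log d := by
  have h : (1 : ℝ) ≤ d := by exact_mod_cast hd
  have hL := Lf_ge d hd
  unfold KK
  rw [Real.log_mul (by positivity) (by positivity), Real.log_mul (by norm_num) (by positivity), Real.log_pow,
    Real.log_pow]
  have h1 : Real.log (Lf d) ≤ Lf d - 1 := Real.log_le_sub_one_of_pos (by linarith)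
  have h2 := Lf_le d hd
  have h3 := log_thirtytwo_le
  push_cast
  linarith

lemma log_tau0_le (d : ℕ) (hd : 1 ≤ d) : Real.log (tau0 d) ≤ (49 + 19 * Real.log d) / 2 := by
  have h : (1 : ℝ) ≤ d := by exact_mod_cast hd
  have hW := Wm_pos d hd
  have hK := KK_pos d hd
  have h1 := log_KK_le d hd
  unfold tau0
  rw [Real.log_sqrt (by positivity), Real.log_mul hW.ne' hK.ne']
  have h2 : Real.log (Wm d) = Real.log 30 + Real.log d := by
    unfold Wm
    rw [Real.log_mul (by norm_num) (by positivity)]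
  have h3 := log_thirty_le
  rw [h2]
  linarith

lemma log_tau0_nonneg (d : ℕ) (hd : 1 ≤ d) : 0 ≤ Real.log (tau0 d) := by
  have h : (1 : ℝ) ≤ d := by exact_mod_cast hd
  apply Real.log_nonneg
  unfold tau0
  rw [Real.one_le_sqrt]
  have h1 := KK_ge d hd
  have h2 : 1 ≤ Wm d := by unfold Wm; linarith
  nlinarith

lemma nw_le (d : ℕ) (hd : 1 ≤ d) : (nw d : ℝ) ≤ 124 + 48 * Real.log d := by
  have h1 := log_tau0_nonneg d hd
  have h2 := log_tau0_le d hd
  have h3 : (nw d : ℝ) < 5 * Real.log (tau0 d) + 1 := Nat.ceil_lt_add_one (by positivity)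
  have h4 := logd_nonneg d hd
  linarith

lemma log_ZZ_le (d : ℕ) (hd : 1 ≤ d) : Real.log (ZZ d) ≤ 7 + 3 * Real.log d := by
  have h : (1 : ℝ) ≤ d := by exact_mod_cast hd
  unfold ZZ
  rw [Real.log_mul (by positivity) (Real.exp_pos _).ne', Real.log_mul (by norm_num) (by positivity), Real.log_exp]
  have h1 := Lf_le d hd
  have h2 := log_four_le
  linarith

lemma Lw_le (d : ℕ) (hd : 1 ≤ d) : Lw d ≤ 2112 + 819 * Real.log d := by
  have h : (1 : ℝ) ≤ d := by exact_mod_cast hd
  have hZ := ZZ_pos d hd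
  unfold Lw
  rw [Real.log_mul hZ.ne' (by positivity), Real.log_pow]
  have h1 := log_ZZ_le d hd
  have h2 := nw_le d hd
  have h3 : (nw d : ℝ) * Real.log 64 ≤ (124 + 48 * Real.log d) * (21 / 5) := by
    apply mul_le_mul h2 log_sixtyfour_le log_sixtyfour_nonneg
    have := logd_nonneg d hd
    positivity
  have h4 := logd_nonneg d hd
  nlinarith

theorem Lam_le (d : ℕ) (hd : 1 ≤ d) : Lam d ≤ 2230 * (1 + Real.log d) := by
  have h1 := Lw_le d hd
  have h2 := Lf_le d hd
  have h3 := logd_nonneg d hd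
  unfold Lam
  linarith

theorem lamStatement : LamStatement := ⟨2230, by norm_num, Lam_le⟩

end Vale.Agent.P262
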