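import Mathlib
import Vale.Agent.P262.Defs

namespace Vale.Agent.P262

open scoped BigOperators

/-- The extremal family. -/
noncomputable def fam (d : ℕ) : Fin (d + d) → EuclideanSpace ℝ (Fin d) :=
  Fin.append (fun j => EuclideanSpace.single j (1 : ℝ)) (fun _ => WithLp.toLp 2 (fun _ => -(1 / (d : ℝ))))

lemma fam_left (d : ℕ) (j : Fin d) : fam d (Fin.castAdd d j) = EuclideanSpace.single j (1 : ℝ) := by
  simp [fam]

lemma fam_right (d : ℕ) (j : Fin d) : fam d (Fin.natAdd d j) = WithLp.toLp 2 (fun _ => -(1 / (d : ℝ))) := by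
  unfold fam
  rw [Fin.append_right]

lemma fam_norm (d : ℕ) (hd : 1 ≤ d) (i : Fin (d + d)) : ‖fam d i‖ ≤ 1 := by
  have h : (1 : ℝ) ≤ d := by exact_mod_cast hd
  induction i using Fin.addCases with
  | left j =>
    rw [fam_left]
    simp
  | right j =>
    rw [fam_right, EuclideanSpace.norm_eq]
    rw [Real.sqrt_le_one]
    simp only [norm_neg, one_div, norm_inv, Finset.sum_const, Finset.card_univ, Fintype.card_fin,
      nsmul_eq_mul, Real.norm_natCast, inv_pow]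
    rw [mul_inv_le_iff₀ (by positivity)]
    nlinarith

lemma fam_sum_weighted (d : ℕ) (χ : Fin (d + d) → ℝ) (j : Fin d) :
    (∑ i, χ i • fam d i) j = χ (Fin.castAdd d j) - (1 / (d : ℝ)) * ∑ l : Fin d, χ (Fin.natAdd d l) := by
  rw [Fin.sum_univ_add]
  simp only [fam_left, fam_right]
  rw [WithLp.ofLp_add]
  simp only [Pi.add_apply, WithLp.ofLp_sum, Finset.sum_apply, WithLp.ofLp_smul, Pi.smul_apply, smul_eq_mul]
  rw [Finset.mul_sum]
  have h1 : ∑ x : Fin d, χ (Fin.castAdd d x) * (EuclideanSpace.single x (1 : ℝ) : EuclideanSpace ℝ (Fin d)) j =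
      χ (Fin.castAdd d j) := by
    simp
  have h2 : ∑ x : Fin d, χ (Fin.natAdd d x) * -(1 / (d : ℝ)) = -∑ l : Fin d, 1 / (d : ℝ) * χ (Fin.natAdd d l) := by
    rw [← Finset.sum_neg_distrib]
    apply Finset.sum_congr rfl
    intro l _
    ring
  rw [h2]
  rw [← sub_eq_add_neg]
  congr 1

lemma fam_sum_zero (d : ℕ) (hd : 1 ≤ d) : ∑ i, fam d i = 0 := by
  have h : (1 : ℝ) ≤ d := by exact_mod_cast hd
  ext j
  have := fam_sum_weighted d (fun _ => 1) j
  simp only [one_smul] at this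
  rw [this]
  simp
  field_simp
  ring

lemma fam_norm_sq (d : ℕ) (hd : 1 ≤ d) (χ : Fin (d + d) → ℝ) (h01 : ∀ i, χ i = 0 ∨ χ i = 1)
    (hsum : ∑ i, χ i = d) : (d : ℝ) / 4 ≤ ‖∑ i, χ i • fam d i‖ ^ 2 := by
  have h : (1 : ℝ) ≤ d := by exact_mod_cast hd
  rw [EuclideanSpace.norm_sq_eq]
  simp only [fam_sum_weighted]
  rw [Fin.sum_univ_add] at hsum
  set A := ∑ j : Fin d, χ (Fin.castAdd d j) with hA
  set B := ∑ j : Fin d, χ (Fin.natAdd d j) with hB
  set t := 1 / (d : ℝ) * B with ht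
  have hBt : B = d * t := by rw [ht]; field_simp
  have h1 : ∑ j : Fin d, ‖χ (Fin.castAdd d j) - t‖ ^ 2 = A * (1 - 2 * t) + d * t ^ 2 := by
    have : ∀ j : Fin d, ‖χ (Fin.castAdd d j) - t‖ ^ 2 = χ (Fin.castAdd d j) * (1 - 2 * t) + t ^ 2 := by
      intro j
      rw [Real.norm_eq_abs, sq_abs]
      rcases h01 (Fin.castAdd d j) with h | h <;> rw [h] <;> ring
    simp only [this]
    rw [Finset.sum_add_distrib, ← Finset.sum_mul, ← hA]
    simp
  rw [h1]
  have h2 : A = d * (1 - t) := by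
    have : A = d - B := by linarith
    rw [this, hBt]
    ring
  rw [h2]
  have h3 : 0 ≤ (d : ℝ) * (t - 1 / 2) ^ 2 := by positivity
  nlinarith

theorem beta_fam (d : ℕ) (hd : 1 ≤ d) : 1 / 2 * Real.sqrt d ≤ beta (fam d) := by
  have h : (1 : ℝ) ≤ d := by exact_mod_cast hd
  apply le_ciInf
  intro π
  have hk : d < d + d + 1 := by omega
  refine le_trans ?_ (le_ciSup (Set.finite_range _).bddAbove (⟨d, hk⟩ : Fin (d + d + 1)))
  have e1 : ∑ i ∈ Finset.univ.filter (fun i : Fin (d + d) => (i : ℕ) < ((⟨d, hk⟩ : Fin (d + d + 1)) : ℕ)), fam d (π i) =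
      ∑ i, (if ((π.symm i : Fin (d + d)) : ℕ) < d then (1 : ℝ) else 0) • fam d i := by
    rw [Finset.sum_filter, ← Equiv.sum_comp π (fun i => (if ((π.symm i : Fin (d + d)) : ℕ) < d then (1 : ℝ) else 0) • fam d i)]
    apply Finset.sum_congr rfl
    intro i _
    simp
  rw [e1]
  have h2 : ∑ i, (if ((π.symm i : Fin (d + d)) : ℕ) < d then (1 : ℝ) else 0) = d := by
    rw [← Equiv.sum_comp π]
    simp only [Equiv.symm_apply_apply]
    rw [Fin.sum_univ_add]
    simp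
  have h3 := fam_norm_sq d hd (fun i => (if ((π.symm i : Fin (d + d)) : ℕ) < d then (1 : ℝ) else 0))
    (by intro i; by_cases h : ((π.symm i : Fin (d + d)) : ℕ) < d <;> simp [h]) h2
  have h4 : (1 / 2 * Real.sqrt d) ^ 2 ≤
      ‖∑ i, (if ((π.symm i : Fin (d + d)) : ℕ) < d then (1 : ℝ) else 0) • fam d i‖ ^ 2 := by
    rw [mul_pow, Real.sq_sqrt (by positivity)]
    linarith
  exact le_of_pow_le_pow_left₀ (two_ne_zero) (norm_nonneg _) h4

theorem S2_ge (d : ℕ) (hd : 1 ≤ d) (hb : BddAbove (betaSet d)) : 1 / 2 * Real.sqrt d ≤ S2 d := by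
  refine (beta_fam d hd).trans ?_
  exact le_csSup hb ⟨d + d, fam d, fam_norm d hd, fam_sum_zero d hd, rfl⟩

end Vale.Agent.P262
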