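import Mathlib

/-!
# P262, package A: the rounding lemma (Gram-Schmidt walk with an exponential potential).

Please prove `rounding` below (file `Vale/Agent/P262/Rounding.lean`, same statement).  The paper proof is in
`Vale/Agent/P262/PROOF.md`, section 1.
-/

namespace Vale.Agent.P262

open scoped BigOperators

/-- Rounding lemma. -/
def RoundingStatement : Prop :=
  ∀ {ι κ : Type} [Fintype ι] [DecidableEq ι] [Fintype κ] {E : Type} [NormedAddCommGroup E] [InnerProductSpace ℝ E]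
    [FiniteDimensional ℝ E] (F : Finset ι) (z : ι → E) (_ : ∀ i ∈ F, ‖z i‖ ≤ 1) (x : ι → ℝ) (_ : ∀ i ∈ F, |x i| ≤ 1)
    (y : κ → E) (_ : ∀ k, ‖y k‖ ≤ 1 / 4) (W : κ → ℝ) (_ : ∀ k, 0 ≤ W k),
    ∃ ε : ι → ℝ, (∀ i ∈ F, ε i = 1 ∨ ε i = -1) ∧
      ∑ k, W k * Real.exp (inner ℝ (∑ i ∈ F, (ε i - x i) • z i) (y k)) ≤ Real.exp (1 / 8) * ∑ k, W k

end Vale.Agent.P262
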