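import Mathlib
import Vale.Agent.P262.Defs
import Vale.Agent.P262.Consts
import Vale.Agent.P262.RoundingStatement

namespace Vale.Agent.P262

open scoped BigOperators Classical

/-- Data and hypotheses of one splitting step. -/
structure SplitData (d : ℕ) (ι : Type) where
  hd : 1 ≤ d
  v : ι → Fin d → ℝ
  hv : ∀ i, ∑ j, (v i j) ^ 2 ≤ 1
  R : Finset ι
  U : Finset ι
  hRU : Disjoint R U
  hU : U.card = 13
  fast : Fin d → Prop
  win : Fin d → Prop
  gran : Fin d → Prop
  a : Fin d → ℝ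
  ha : ∀ j, fast j → KK d ≤ a j
  hA : ∀ j, fast j → ∀ k, |∑ i ∈ R ∪ U, v i j * v i k - (if j = k then a j else 0)| ≤
    2 * Lf d + 10 * Lf d * d * Real.sqrt (a j / KK d)
  h : Fin d → ℝ
  hh : ∀ j, fast j → |h j| ≤ Lf d
  τ : Fin d → ℝ
  hτ : ∀ j, ¬ fast j → 0 ≤ τ j
  hslow : ∀ j, ¬ fast j → ∑ i ∈ R ∪ U, (v i j) ^ 2 ≤ (τ j) ^ 2
  hgran : ∀ j, gran j → ¬ fast j ∧ 0 < τ j ∧ τ j ≤ 1
  hgran2 : ∀ i ∈ R, ∑ j, (if gran j then (v i j) ^ 2 / (τ j) ^ 2 else 0) ≤ 1
  hwin : ∀ j, win j → ¬ fast j ∧ ¬ gran j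
  u : Fin d → ℝ
  hu : ∀ j, 0 ≤ u j
  hpot : ∑ j, (if win j then u j * (Real.exp (h j / 4) + Real.exp (-(h j) / 4)) else 0) ≤ ZZ d
  w : ι → ℝ
  hw : ∀ i, 0 ≤ w i
  wm : ℝ
  hwm : 0 ≤ wm
  hwR : ∀ i ∈ R, w i ≤ wm
  hwU : ∀ i ∈ U, wm ≤ w i

namespace SplitData

variable {d : ℕ} {ι : Type} (S : SplitData d ι)

include S

lemma Lf_ge' : (20 : ℝ) ≤ Lf d := Lf_ge d S.hd

lemma d_ge : (1 : ℝ) ≤ d := by exact_mod_cast S.hd

lemma K_pos : 0 < KK d := KK_pos d S.hd

lemma v_abs_le (i : ι) (j : Fin d) : |S.v i j| ≤ 1 := by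
  have h1 : (S.v i j) ^ 2 ≤ ∑ j, (S.v i j) ^ 2 :=
    Finset.single_le_sum (f := fun j => (S.v i j) ^ 2) (fun j _ => sq_nonneg _) (Finset.mem_univ j)
  have h2 := h1.trans (S.hv i)
  rw [← sq_abs] at h2
  have h3 := abs_nonneg (S.v i j)
  nlinarith

lemma a_pos {j : Fin d} (hj : S.fast j) : 0 < S.a j := lt_of_lt_of_le S.K_pos (S.ha j hj)

omit S in
/-- for `t ≥ 1`, `sqrt t ≤ t`. -/
lemma sqrt_le_of_one_le {t : ℝ} (ht : 1 ≤ t) : Real.sqrt t ≤ t := by
  rw [Real.sqrt_le_left (by linarith)]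
  nlinarith

lemma one_le_ratio {j : Fin d} (hj : S.fast j) : 1 ≤ S.a j / KK d := by
  rw [le_div_iff₀ S.K_pos]
  linarith [S.ha j hj]

/-- (K2): the error of (I1) is at most `a_j`. -/
lemma err_le {j : Fin d} (hj : S.fast j) :
    2 * Lf d + 10 * Lf d * d * Real.sqrt (S.a j / KK d) ≤ S.a j := by
  have h1 := S.one_le_ratio hj
  have h2 := sqrt_le_of_one_le h1
  have hL := S.Lf_ge'
  have hd := S.d_ge
  have hK := S.K_pos
  have h3 : 2 * Lf d + 10 * Lf d * d * Real.sqrt (S.a j / KK d) ≤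
      (2 * Lf d + 10 * Lf d * d) * (S.a j / KK d) := by
    have : 10 * Lf d * d * Real.sqrt (S.a j / KK d) ≤ 10 * Lf d * d * (S.a j / KK d) := by
      apply mul_le_mul_of_nonneg_left h2 (by positivity)
    nlinarith
  have h4 : (2 * Lf d + 10 * Lf d * d) ≤ KK d := by
    unfold KK
    have : 1 ≤ Lf d * d := by nlinarith
    nlinarith [mul_nonneg (by linarith : (0:ℝ) ≤ Lf d) (by linarith : (0:ℝ) ≤ (d:ℝ))]
  refine h3.trans ?_
  have ha := S.a_pos hj
  calc (2 * Lf d + 10 * Lf d * d) * (S.a j / KK d) ≤ KK d * (S.a j / KK d) := by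
        apply mul_le_mul_of_nonneg_right h4 (by positivity)
    _ = S.a j := by field_simp

/-- energies of fast coordinates. -/
lemma A_le {j : Fin d} (hj : S.fast j) : ∑ i ∈ S.R ∪ S.U, (S.v i j) ^ 2 ≤ 2 * S.a j := by
  have h1 := S.hA j hj j
  simp only [if_true] at h1
  have h2 := S.err_le hj
  have h3 := (abs_le.mp (h1.trans h2)).2
  have h4 : ∑ i ∈ S.R ∪ S.U, (S.v i j) ^ 2 = ∑ i ∈ S.R ∪ S.U, S.v i j * S.v i j := by
    apply Finset.sum_congr rfl; intro i _; ring
  rw [h4]; linarith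

lemma sumR_sq_le (j : Fin d) : ∑ i ∈ S.R, (S.v i j) ^ 2 ≤ ∑ i ∈ S.R ∪ S.U, (S.v i j) ^ 2 :=
  Finset.sum_le_sum_of_subset_of_nonneg Finset.subset_union_left (fun _ _ _ => sq_nonneg _)

/-- correction direction. -/
noncomputable def xi (k : Fin d) : ℝ := if S.fast k then 2 * S.h k / S.a k else 0

/-- correction bias. -/
noncomputable def x (i : ι) : ℝ := -∑ k, S.xi k * S.v i k

lemma xi_abs_le {k : Fin d} (hk : S.fast k) : |S.xi k| ≤ 2 * Lf d / S.a k := by
  unfold xi
  rw [if_pos hk, abs_div, abs_of_pos (S.a_pos hk), abs_mul, abs_of_pos (by norm_num : (0:ℝ) < 2)]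
  apply div_le_div_of_nonneg_right _ (S.a_pos hk).le
  linarith [S.hh k hk]

lemma xi_of_not {k : Fin d} (hk : ¬ S.fast k) : S.xi k = 0 := by
  unfold xi; rw [if_neg hk]

lemma xi_abs_le' (k : Fin d) : |S.xi k| ≤ 2 * Lf d / KK d := by
  by_cases hk : S.fast k
  · refine (S.xi_abs_le hk).trans ?_
    have hL := S.Lf_ge'
    apply div_le_div_of_nonneg_left (by linarith) S.K_pos (S.ha k hk)
  · rw [S.xi_of_not hk, abs_zero]
    have hL := S.Lf_ge'
    have := S.K_pos
    positivity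

/-- (K3) the bias is small. -/
lemma x_abs_le (i : ι) : |S.x i| ≤ 1 / 10 := by
  unfold x
  rw [abs_neg]
  have hL := S.Lf_ge'
  have hd := S.d_ge
  have hK := S.K_pos
  calc |∑ k, S.xi k * S.v i k| ≤ ∑ k, |S.xi k * S.v i k| := Finset.abs_sum_le_sum_abs _ _
    _ ≤ ∑ _k : Fin d, 2 * Lf d / KK d := by
        apply Finset.sum_le_sum
        intro k _
        rw [abs_mul]
        calc |S.xi k| * |S.v i k| ≤ (2 * Lf d / KK d) * 1 := by
              apply mul_le_mul (S.xi_abs_le' k) (S.v_abs_le i k) (abs_nonneg _) (by positivity)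
          _ = 2 * Lf d / KK d := by ring
    _ = d * (2 * Lf d / KK d) := by simp
    _ ≤ 1 / 10 := by
        have h1 : d * (2 * Lf d / KK d) = (d * (2 * Lf d)) / KK d := by ring
        rw [h1, div_le_iff₀ hK]
        unfold KK
        have h2 : 1 ≤ Lf d * d := by nlinarith
        nlinarith

lemma x_abs_le_one (i : ι) : |S.x i| ≤ 1 := (S.x_abs_le i).trans (by norm_num)

/-- expansion of `∑ x_i f_i`. -/
lemma sum_x_mul (T : Finset ι) (f : ι → ℝ) :
    ∑ i ∈ T, S.x i * f i = -∑ k, S.xi k * ∑ i ∈ T, S.v i k * f i := by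
  unfold x
  have h1 : ∀ i ∈ T, (-∑ k, S.xi k * S.v i k) * f i = -∑ k, S.xi k * (S.v i k * f i) := by
    intro i _
    rw [neg_mul, Finset.sum_mul]
    congr 1
    apply Finset.sum_congr rfl; intro k _; ring
  rw [Finset.sum_congr rfl h1, Finset.sum_neg_distrib, Finset.sum_comm]
  congr 1
  apply Finset.sum_congr rfl; intro k _
  rw [Finset.mul_sum]

lemma U_abs_le (j k : Fin d) : |∑ i ∈ S.U, S.v i j * S.v i k| ≤ 13 := by
  calc |∑ i ∈ S.U, S.v i j * S.v i k| ≤ ∑ i ∈ S.U, |S.v i j * S.v i k| := Finset.abs_sum_le_sum_abs _ _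
    _ ≤ ∑ _i ∈ S.U, (1 : ℝ) := by
        apply Finset.sum_le_sum; intro i _
        rw [abs_mul]
        nlinarith [S.v_abs_le i j, S.v_abs_le i k, abs_nonneg (S.v i j), abs_nonneg (S.v i k)]
    _ = 13 := by simp [S.hU]

lemma R_eq (f : ι → ℝ) : ∑ i ∈ S.R, f i = ∑ i ∈ S.R ∪ S.U, f i - ∑ i ∈ S.U, f i := by
  rw [Finset.sum_union S.hRU]; ring

/-- entries of the covariance of `R`. -/
lemma R_entry {k : Fin d} (hk : S.fast k) (j : Fin d) :
    |∑ i ∈ S.R, S.v i k * S.v i j - (if k = j then S.a k else 0)| ≤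
      (2 * Lf d + 10 * Lf d * d * Real.sqrt (S.a k / KK d)) + 13 := by
  rw [S.R_eq]
  have h1 := S.hA k hk j
  have h2 := S.U_abs_le k j
  rw [abs_le] at *
  constructor <;> linarith [h1.1, h1.2, h2.1, h2.2]

/-- the key numerical estimate for the drift. -/
lemma drift_term {k : Fin d} (hk : S.fast k) :
    (2 * Lf d / S.a k) * ((2 * Lf d + 10 * Lf d * d * Real.sqrt (S.a k / KK d)) + 13) ≤ 1 / d := by
  have hL := S.Lf_ge'
  have hd := S.d_ge
  have hK := S.K_pos
  have ha := S.a_pos hk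
  have h1 := S.one_le_ratio hk
  have h2 := sqrt_le_of_one_le h1
  have h3 : (2 * Lf d + 10 * Lf d * d * Real.sqrt (S.a k / KK d)) + 13 ≤ (14 * Lf d * d) * (S.a k / KK d) := by
    have h4 : 10 * Lf d * d * Real.sqrt (S.a k / KK d) ≤ 10 * Lf d * d * (S.a k / KK d) := by
      apply mul_le_mul_of_nonneg_left h2 (by positivity)
    have h5 : 2 * Lf d + 13 ≤ (4 * Lf d * d) * (S.a k / KK d) := by
      have h6 : 2 * Lf d + 13 ≤ 4 * Lf d * d := by nlinarith
      have h7 : (4 * Lf d * d) * 1 ≤ (4 * Lf d * d) * (S.a k / KK d) := by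
        apply mul_le_mul_of_nonneg_left h1 (by positivity)
      linarith
    nlinarith
  calc (2 * Lf d / S.a k) * ((2 * Lf d + 10 * Lf d * d * Real.sqrt (S.a k / KK d)) + 13)
      ≤ (2 * Lf d / S.a k) * ((14 * Lf d * d) * (S.a k / KK d)) := by
        apply mul_le_mul_of_nonneg_left h3 (by positivity)
    _ = 28 * (Lf d) ^ 2 * d / KK d := by field_simp; ring
    _ ≤ 1 / d := by
        rw [div_le_div_iff₀ hK (by linarith)]
        unfold KK
        nlinarith [sq_nonneg (Lf d * d)]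

/-- (i) drift bound, fast coordinates. -/
lemma drift_fast {j : Fin d} (hj : S.fast j) : |∑ i ∈ S.R, S.x i * S.v i j + 2 * S.h j| ≤ 1 := by
  have hd := S.d_ge
  rw [S.sum_x_mul]
  have ha := S.a_pos hj
  have h1 : 2 * S.h j = ∑ k, S.xi k * (if k = j then S.a k else 0) := by
    rw [Finset.sum_eq_single j]
    · simp only [if_true]
      unfold xi
      rw [if_pos hj]
      field_simp
    · intro k _ hkj
      rw [if_neg hkj, mul_zero]
    · intro h; exact absurd (Finset.mem_univ j) h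
  rw [h1]
  have h2 : -∑ k, S.xi k * ∑ i ∈ S.R, S.v i k * S.v i j + ∑ k, S.xi k * (if k = j then S.a k else 0) =
      -∑ k, S.xi k * (∑ i ∈ S.R, S.v i k * S.v i j - (if k = j then S.a k else 0)) := by
    rw [← Finset.sum_neg_distrib, ← Finset.sum_neg_distrib, ← Finset.sum_add_distrib]
    apply Finset.sum_congr rfl; intro k _; ring
  rw [h2, abs_neg]
  calc |∑ k, S.xi k * (∑ i ∈ S.R, S.v i k * S.v i j - (if k = j then S.a k else 0))|
      ≤ ∑ k, |S.xi k * (∑ i ∈ S.R, S.v i k * S.v i j - (if k = j then S.a k else 0))| :=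
        Finset.abs_sum_le_sum_abs _ _
    _ ≤ ∑ _k : Fin d, (1 / d : ℝ) := by
        apply Finset.sum_le_sum; intro k _
        by_cases hk : S.fast k
        · rw [abs_mul]
          refine le_trans ?_ (S.drift_term hk)
          apply mul_le_mul (S.xi_abs_le hk) (S.R_entry hk j) (abs_nonneg _)
          have := S.a_pos hk
          have := S.Lf_ge'
          positivity
        · rw [S.xi_of_not hk, zero_mul, abs_zero]; positivity
    _ = 1 := by
        simp only [Finset.sum_const, Finset.card_univ, Fintype.card_fin, nsmul_eq_mul]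
        field_simp

/-- (i) drift bound, all slow coordinates. -/
lemma drift_slow {j : Fin d} (hj : ¬ S.fast j) : |∑ i ∈ S.R, S.x i * S.v i j| ≤ 1 := by
  have hd := S.d_ge
  rw [S.sum_x_mul, abs_neg]
  calc |∑ k, S.xi k * ∑ i ∈ S.R, S.v i k * S.v i j|
      ≤ ∑ k, |S.xi k * ∑ i ∈ S.R, S.v i k * S.v i j| := Finset.abs_sum_le_sum_abs _ _
    _ ≤ ∑ _k : Fin d, (1 / d : ℝ) := by
        apply Finset.sum_le_sum; intro k _
        by_cases hk : S.fast k
        · rw [abs_mul]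
          refine le_trans ?_ (S.drift_term hk)
          have hkj : k ≠ j := by rintro rfl; exact hj hk
          have h3 := S.R_entry hk j
          rw [if_neg hkj, sub_zero] at h3
          apply mul_le_mul (S.xi_abs_le hk) h3 (abs_nonneg _)
          have := S.a_pos hk
          have := S.Lf_ge'
          positivity
        · rw [S.xi_of_not hk, zero_mul, abs_zero]; positivity
    _ = 1 := by
        simp only [Finset.sum_const, Finset.card_univ, Fintype.card_fin, nsmul_eq_mul]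
        field_simp

omit S in
/-- Cauchy-Schwarz for finite sums. -/
lemma cs (T : Finset ι) (f g : ι → ℝ) {A B : ℝ} (hA : 0 ≤ A) (hB : 0 ≤ B) (hf : ∑ i ∈ T, (f i) ^ 2 ≤ A ^ 2)
    (hg : ∑ i ∈ T, (g i) ^ 2 ≤ B ^ 2) : |∑ i ∈ T, f i * g i| ≤ A * B := by
  have h1 := Finset.sum_mul_sq_le_sq_mul_sq T f g
  have h2 : (∑ i ∈ T, f i * g i) ^ 2 ≤ (A * B) ^ 2 := by
    refine h1.trans ?_
    rw [mul_pow]
    apply mul_le_mul hf hg (Finset.sum_nonneg (fun i _ => sq_nonneg _)) (by positivity)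
  exact abs_le_of_sq_le_sq h2 (by positivity)

lemma sqrt_two_a {k : Fin d} (hk : S.fast k) :
    (2 * Lf d / S.a k) * Real.sqrt (2 * S.a k) = 2 * Real.sqrt 2 * Lf d / Real.sqrt (S.a k) := by
  have ha := S.a_pos hk
  rw [Real.sqrt_mul (by norm_num)]
  have h1 : Real.sqrt (S.a k) ≠ 0 := (Real.sqrt_pos.mpr ha).ne'
  have h2 : S.a k = Real.sqrt (S.a k) * Real.sqrt (S.a k) := (Real.mul_self_sqrt ha.le).symm
  have h3 : 2 * Lf d / S.a k * (Real.sqrt 2 * Real.sqrt (S.a k)) =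
      2 * Real.sqrt 2 * Lf d * Real.sqrt (S.a k) / S.a k := by ring
  rw [h3]
  nth_rewrite 2 [h2]
  field_simp

lemma inv_sqrt_a {k : Fin d} (hk : S.fast k) :
    1 / Real.sqrt (S.a k) ≤ 1 / Real.sqrt (KK d) := by
  apply one_div_le_one_div_of_le (Real.sqrt_pos.mpr S.K_pos)
  exact Real.sqrt_le_sqrt (S.ha k hk)

lemma sqrtK : Real.sqrt (KK d) = Real.sqrt 32 * (Lf d * d) := by
  have hL := S.Lf_ge'
  have hd := S.d_ge
  unfold KK
  rw [show 32 * (Lf d) ^ 2 * (d : ℝ) ^ 2 = 32 * (Lf d * d) ^ 2 by ring, Real.sqrt_mul (by norm_num),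
    Real.sqrt_sq (by positivity)]

/-- (ii) drift bound by `τ_j`. -/
lemma drift_slow' {j : Fin d} (hj : ¬ S.fast j) : |∑ i ∈ S.R, S.x i * S.v i j| ≤ S.τ j := by
  have hd := S.d_ge
  have hL := S.Lf_ge'
  have hτ := S.hτ j hj
  rw [S.sum_x_mul, abs_neg]
  have hterm : ∀ k, |S.xi k * ∑ i ∈ S.R, S.v i k * S.v i j| ≤ S.τ j / d := by
    intro k
    by_cases hk : S.fast k
    · have ha := S.a_pos hk
      rw [abs_mul]
      have h1 : |∑ i ∈ S.R, S.v i k * S.v i j| ≤ Real.sqrt (2 * S.a k) * S.τ j := by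
        apply cs _ _ _ (Real.sqrt_nonneg _) hτ
        · rw [Real.sq_sqrt (by positivity)]
          exact (S.sumR_sq_le k).trans (S.A_le hk)
        · exact (S.sumR_sq_le j).trans (S.hslow j hj)
      have h2 : |S.xi k| * |∑ i ∈ S.R, S.v i k * S.v i j| ≤
          (2 * Lf d / S.a k) * (Real.sqrt (2 * S.a k) * S.τ j) := by
        apply mul_le_mul (S.xi_abs_le hk) h1 (abs_nonneg _) (by positivity)
      refine h2.trans ?_
      rw [← mul_assoc, S.sqrt_two_a hk]
      have h3 : 2 * Real.sqrt 2 * Lf d / Real.sqrt (S.a k) ≤ 1 / d := by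
        have h4 := S.inv_sqrt_a hk
        have h5 : 2 * Real.sqrt 2 * Lf d / Real.sqrt (S.a k) = (2 * Real.sqrt 2 * Lf d) * (1 / Real.sqrt (S.a k)) := by
          ring
        rw [h5]
        calc (2 * Real.sqrt 2 * Lf d) * (1 / Real.sqrt (S.a k))
            ≤ (2 * Real.sqrt 2 * Lf d) * (1 / Real.sqrt (KK d)) := by
              apply mul_le_mul_of_nonneg_left h4 (by positivity)
          _ = (2 * Real.sqrt 2 * Lf d) / (Real.sqrt 32 * (Lf d * d)) := by rw [S.sqrtK]; ring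
          _ ≤ 1 / d := by
              rw [div_le_div_iff₀ (by positivity) (by linarith)]
              have h6 : 2 * Real.sqrt 2 ≤ Real.sqrt 32 := by
                have : 2 * Real.sqrt 2 = Real.sqrt 8 := by
                  rw [show (8 : ℝ) = 2 ^ 2 * 2 by norm_num, Real.sqrt_mul (by norm_num), Real.sqrt_sq (by norm_num)]
                rw [this]
                exact Real.sqrt_le_sqrt (by norm_num)
              have h7 : 0 ≤ Lf d * d := by positivity
              calc 2 * Real.sqrt 2 * Lf d * d = (2 * Real.sqrt 2) * (Lf d * d) := by ring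
                _ ≤ Real.sqrt 32 * (Lf d * d) := mul_le_mul_of_nonneg_right h6 h7
                _ = 1 * (Real.sqrt 32 * (Lf d * d)) := by ring
      calc 2 * Real.sqrt 2 * Lf d / Real.sqrt (S.a k) * S.τ j ≤ (1 / d) * S.τ j :=
            mul_le_mul_of_nonneg_right h3 hτ
        _ = S.τ j / d := by ring
    · rw [S.xi_of_not hk, zero_mul, abs_zero]; positivity
  calc |∑ k, S.xi k * ∑ i ∈ S.R, S.v i k * S.v i j|
      ≤ ∑ k, |S.xi k * ∑ i ∈ S.R, S.v i k * S.v i j| := Finset.abs_sum_le_sum_abs _ _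
    _ ≤ ∑ _k : Fin d, S.τ j / d := Finset.sum_le_sum (fun k _ => hterm k)
    _ = S.τ j := by
        simp only [Finset.sum_const, Finset.card_univ, Fintype.card_fin, nsmul_eq_mul]
        field_simp

/-- (K5) bias of the covariance matrix. -/
lemma matrix_bias {j : Fin d} (hj : S.fast j) (m : Fin d) :
    |∑ i ∈ S.R, S.x i * (S.v i j * S.v i m)| ≤ 4 * Lf d * d * Real.sqrt (S.a j / KK d) := by
  have hd := S.d_ge
  have hL := S.Lf_ge'
  have haj := S.a_pos hj
  rw [S.sum_x_mul, abs_neg]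
  have hterm : ∀ k, |S.xi k * ∑ i ∈ S.R, S.v i k * (S.v i j * S.v i m)| ≤ 4 * Lf d * Real.sqrt (S.a j / KK d) := by
    intro k
    by_cases hk : S.fast k
    · have ha := S.a_pos hk
      rw [abs_mul]
      have h1 : |∑ i ∈ S.R, S.v i k * (S.v i j * S.v i m)| ≤ Real.sqrt (2 * S.a k) * Real.sqrt (2 * S.a j) := by
        apply cs _ _ _ (Real.sqrt_nonneg _) (Real.sqrt_nonneg _)
        · rw [Real.sq_sqrt (by positivity)]
          exact (S.sumR_sq_le k).trans (S.A_le hk)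
        · rw [Real.sq_sqrt (by positivity)]
          refine le_trans ?_ ((S.sumR_sq_le j).trans (S.A_le hj))
          apply Finset.sum_le_sum; intro i _
          have h2 := S.v_abs_le i m
          have h3 : (S.v i m) ^ 2 ≤ 1 := by
            rw [← sq_abs]; nlinarith [abs_nonneg (S.v i m)]
          nlinarith [sq_nonneg (S.v i j)]
      have h2 : |S.xi k| * |∑ i ∈ S.R, S.v i k * (S.v i j * S.v i m)| ≤
          (2 * Lf d / S.a k) * (Real.sqrt (2 * S.a k) * Real.sqrt (2 * S.a j)) := by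
        apply mul_le_mul (S.xi_abs_le hk) h1 (abs_nonneg _) (by positivity)
      refine h2.trans ?_
      rw [← mul_assoc, S.sqrt_two_a hk]
      have h4 := S.inv_sqrt_a hk
      calc 2 * Real.sqrt 2 * Lf d / Real.sqrt (S.a k) * Real.sqrt (2 * S.a j)
          = (2 * Real.sqrt 2 * Lf d * Real.sqrt (2 * S.a j)) * (1 / Real.sqrt (S.a k)) := by ring
        _ ≤ (2 * Real.sqrt 2 * Lf d * Real.sqrt (2 * S.a j)) * (1 / Real.sqrt (KK d)) := by
            apply mul_le_mul_of_nonneg_left h4 (by positivity)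
        _ = 4 * Lf d * Real.sqrt (S.a j / KK d) := by
            rw [Real.sqrt_mul (by norm_num), Real.sqrt_div haj.le]
            have h5 : Real.sqrt 2 * Real.sqrt 2 = 2 := Real.mul_self_sqrt (by norm_num)
            have h6 : 2 * Real.sqrt 2 * Lf d * (Real.sqrt 2 * Real.sqrt (S.a j)) * (1 / Real.sqrt (KK d)) =
              (Real.sqrt 2 * Real.sqrt 2) * 2 * Lf d * (Real.sqrt (S.a j) / Real.sqrt (KK d)) := by ring
            rw [h6, h5]; ring
    · rw [S.xi_of_not hk, zero_mul, abs_zero]; positivity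
  calc |∑ k, S.xi k * ∑ i ∈ S.R, S.v i k * (S.v i j * S.v i m)|
      ≤ ∑ k, |S.xi k * ∑ i ∈ S.R, S.v i k * (S.v i j * S.v i m)| := Finset.abs_sum_le_sum_abs _ _
    _ ≤ ∑ _k : Fin d, 4 * Lf d * Real.sqrt (S.a j / KK d) := Finset.sum_le_sum (fun k _ => hterm k)
    _ = 4 * Lf d * d * Real.sqrt (S.a j / KK d) := by
        simp only [Finset.sum_const, Finset.card_univ, Fintype.card_fin, nsmul_eq_mul]
        ring

end SplitData

end Vale.Agent.P262
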