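import Mathlib
import Vale.Agent.P262.Split

namespace Vale.Agent.P262

open scoped BigOperators Classical

/-- coordinate form of the rounding lemma. -/
theorem rounding_coord (hR : RoundingStatement) {ι C κ : Type} [Fintype ι] [Fintype C] [Fintype κ]
    (F : Finset ι) (z : ι → C → ℝ) (hz : ∀ i ∈ F, ∑ c, (z i c) ^ 2 ≤ 1) (x : ι → ℝ) (hx : ∀ i ∈ F, |x i| ≤ 1)
    (c : κ → C) (t : κ → ℝ) (ht : ∀ k, |t k| ≤ 1 / 4) (W : κ → ℝ) (hW : ∀ k, 0 ≤ W k) :
    ∃ ε : ι → ℝ, (∀ i ∈ F, ε i = 1 ∨ ε i = -1) ∧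
      ∑ k, W k * Real.exp (t k * ∑ i ∈ F, (ε i - x i) * z i (c k)) ≤ Real.exp (1 / 8) * ∑ k, W k := by
  obtain ⟨ε, hε, h⟩ := hR (E := EuclideanSpace ℝ C) F (fun i => WithLp.toLp 2 (z i)) (by
    intro i hi
    have h1 : ‖(WithLp.toLp 2 (z i) : EuclideanSpace ℝ C)‖ ^ 2 ≤ 1 := by
      rw [EuclideanSpace.real_norm_sq_eq]
      exact hz i hi
    have h2 := norm_nonneg (WithLp.toLp 2 (z i) : EuclideanSpace ℝ C)
    nlinarith) x hx (fun k => EuclideanSpace.single (c k) (t k)) (by
    intro k
    rw [PiLp.norm_single, Real.norm_eq_abs]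
    exact ht k) W hW
  refine ⟨ε, hε, ?_⟩
  refine le_trans (le_of_eq ?_) h
  apply Finset.sum_congr rfl
  intro k _
  congr 2
  rw [EuclideanSpace.inner_single_right]
  simp

namespace SplitData

variable {d : ℕ} {ι : Type} (S : SplitData d ι)

/-- coordinates of the augmented space. -/
abbrev CC (d : ℕ) : Type := Fin d ⊕ ((Fin d × Fin d) ⊕ Unit)

/-- scaling. -/
noncomputable def s (j : Fin d) : ℝ := if S.gran j then 1 / S.τ j else 1

/-- augmented vectors. -/
noncomputable def z (i : ι) : CC d → ℝ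
  | Sum.inl j => (1 / 2) * (S.s j * S.v i j)
  | Sum.inr (Sum.inl p) => (1 / 2) * (S.v i p.1 * S.v i p.2)
  | Sum.inr (Sum.inr _) => (1 / 2) * (S.w i / S.wm)

lemma z_norm (i : ι) (hi : i ∈ S.R) : ∑ c, (S.z i c) ^ 2 ≤ 1 := by
  rw [Fintype.sum_sum_type, Fintype.sum_sum_type]
  simp only [z, Finset.univ_unique, Finset.sum_singleton]
  have h1 : ∑ j, (1 / 2 * (S.s j * S.v i j)) ^ 2 ≤ (1 / 4) * 2 := by
    have h2 : ∀ j, (1 / 2 * (S.s j * S.v i j)) ^ 2 ≤
        (1 / 4) * ((if S.gran j then (S.v i j) ^ 2 / (S.τ j) ^ 2 else 0) + (S.v i j) ^ 2) := by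
      intro j
      unfold s
      by_cases hj : S.gran j
      · rw [if_pos hj, if_pos hj]
        have : (1 / 2 * (1 / S.τ j * S.v i j)) ^ 2 = (1 / 4) * ((S.v i j) ^ 2 / (S.τ j) ^ 2) := by
          field_simp; ring
        rw [this]
        nlinarith [sq_nonneg (S.v i j)]
      · rw [if_neg hj, if_neg hj]
        nlinarith [sq_nonneg (S.v i j)]
    calc ∑ j, (1 / 2 * (S.s j * S.v i j)) ^ 2
        ≤ ∑ j, (1 / 4) * ((if S.gran j then (S.v i j) ^ 2 / (S.τ j) ^ 2 else 0) + (S.v i j) ^ 2) :=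
          Finset.sum_le_sum (fun j _ => h2 j)
      _ = (1 / 4) * (∑ j, (if S.gran j then (S.v i j) ^ 2 / (S.τ j) ^ 2 else 0) + ∑ j, (S.v i j) ^ 2) := by
          rw [← Finset.mul_sum, Finset.sum_add_distrib]
      _ ≤ (1 / 4) * 2 := by
          have := S.hgran2 i hi
          have := S.hv i
          linarith
  have h3 : ∑ p : Fin d × Fin d, (1 / 2 * (S.v i p.1 * S.v i p.2)) ^ 2 ≤ 1 / 4 := by
    rw [Fintype.sum_prod_type]
    have h4 : ∑ j, ∑ k, (1 / 2 * (S.v i j * S.v i k)) ^ 2 = (1 / 4) * ((∑ j, (S.v i j) ^ 2) * (∑ k, (S.v i k) ^ 2)) := by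
      rw [Finset.sum_mul_sum, Finset.mul_sum]
      apply Finset.sum_congr rfl; intro j _
      rw [Finset.mul_sum]
      apply Finset.sum_congr rfl; intro k _
      ring
    rw [h4]
    have h5 := S.hv i
    have h6 : 0 ≤ ∑ j, (S.v i j) ^ 2 := Finset.sum_nonneg (fun j _ => sq_nonneg _)
    nlinarith
  have h7 : (1 / 2 * (S.w i / S.wm)) ^ 2 ≤ 1 / 4 := by
    have h8 : 0 ≤ S.w i / S.wm := div_nonneg (S.hw i) S.hwm
    have h9 : S.w i / S.wm ≤ 1 := div_le_one_of_le₀ (S.hwR i hi) S.hwm
    nlinarith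
  linarith

/-- test sign. -/
noncomputable def tb (b : Bool) : ℝ := if b then 1 / 4 else -(1 / 4)

omit S in
lemma tb_abs (b : Bool) : |tb b| ≤ 1 / 4 := by
  unfold tb
  cases b <;> simp

/-- test coordinates. -/
def tc : (CC d × Bool) ⊕ (Fin d × Bool) → CC d
  | Sum.inl p => p.1
  | Sum.inr p => Sum.inl p.1

/-- test signs. -/
noncomputable def ts : (CC d × Bool) ⊕ (Fin d × Bool) → ℝ
  | Sum.inl p => tb p.2
  | Sum.inr p => tb p.2

/-- test weights. -/
noncomputable def tw : (CC d × Bool) ⊕ (Fin d × Bool) → ℝ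
  | Sum.inl p => ZZ d / (2 * Mr d) + (if p.1 = Sum.inr (Sum.inr ()) then ZZ d else 0)
  | Sum.inr p => if S.win p.1 then S.u p.1 * Real.exp (tb p.2 * S.h p.1) else 0

include S in
lemma Z_pos : 0 < ZZ d := ZZ_pos d S.hd

include S in
lemma M_pos : 0 < Mr d := by
  have := Mr_ge d S.hd
  linarith

lemma tw_nonneg (k) : 0 ≤ S.tw k := by
  have hZ := S.Z_pos
  have hM := S.M_pos
  rcases k with p | p
  · simp only [tw]
    split_ifs <;> positivity
  · simp only [tw]
    split_ifs
    · have := S.hu p.1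
      positivity
    · exact le_rfl

lemma tw_sum : ∑ k, S.tw k ≤ 4 * ZZ d := by
  have hZ := S.Z_pos
  have hM := S.M_pos
  rw [Fintype.sum_sum_type]
  have h1 : ∑ p : CC d × Bool, S.tw (Sum.inl p) = 3 * ZZ d := by
    simp only [tw]
    rw [Finset.sum_add_distrib, Finset.sum_const, Finset.card_univ, Fintype.card_prod, Fintype.card_sum,
      Fintype.card_sum, Fintype.card_prod, Fintype.card_fin, Fintype.card_unit, Fintype.card_bool,
      Fintype.sum_prod_type]
    have h2 : ∑ c : CC d, ∑ _b : Bool, (if c = Sum.inr (Sum.inr ()) then ZZ d else 0) = 2 * ZZ d := by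
      simp only [Finset.sum_const, Finset.card_univ, Fintype.card_bool, nsmul_eq_mul]
      rw [← Finset.mul_sum, Finset.sum_ite_eq' Finset.univ]
      simp
    rw [h2]
    have h3 : ((d + (d * d + 1)) * 2) • (ZZ d / (2 * Mr d)) = ZZ d := by
      rw [nsmul_eq_mul]
      have h4 : (((d + (d * d + 1)) * 2 : ℕ) : ℝ) = 2 * Mr d := by
        unfold Mr; push_cast; ring
      rw [h4]
      field_simp
    rw [h3]; ring
  have h5 : ∑ p : Fin d × Bool, S.tw (Sum.inr p) ≤ ZZ d := by
    simp only [tw]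
    rw [Fintype.sum_prod_type]
    refine le_trans (le_of_eq ?_) S.hpot
    apply Finset.sum_congr rfl; intro j _
    simp only [Fintype.sum_bool, tb]
    by_cases hj : S.win j
    · simp only [hj, if_true]
      rw [mul_add]
      congr 3
      · ring
      · simp; ring
    · simp [hj]
  linarith

variable [Fintype ι]

/-- The splitting step. -/
theorem split (hR : RoundingStatement) : ∃ ε : ι → ℝ, (∀ i ∈ S.R, ε i = 1 ∨ ε i = -1) ∧
    (∀ j, S.fast j → |S.h j + (∑ i ∈ S.R, ε i * S.v i j) / 2| ≤ Lf d - 13 / 2) ∧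
    (∑ j, (if S.win j then S.u j * (Real.exp ((S.h j + (∑ i ∈ S.R, ε i * S.v i j) / 2) / 4) +
      Real.exp (-(S.h j + (∑ i ∈ S.R, ε i * S.v i j) / 2) / 4)) else 0) ≤ Real.exp (1 / 8) * (5 * ZZ d)) ∧
    (∀ j, S.gran j → |(∑ i ∈ S.R, ε i * S.v i j) / 2| ≤ (Lf d - 13 / 2) * S.τ j) ∧
    (∀ j, S.fast j → ∀ m, |∑ i ∈ S.R, ε i * (S.v i j * S.v i m)| ≤
      4 * Lf d * d * Real.sqrt (S.a j / KK d) + 2 * (Lf d - 7)) ∧
    (|∑ i ∈ S.R, ε i * S.w i| ≤ ∑ i ∈ S.U, S.w i + (1 / 10) * ∑ i ∈ S.R, S.w i) := by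
  have hZ := S.Z_pos
  have hM := S.M_pos
  obtain ⟨ε, hε, hsum⟩ := rounding_coord hR S.R S.z S.z_norm S.x (fun i _ => S.x_abs_le_one i)
    (tc (d := d)) (ts (d := d)) (by
      intro k
      rcases k with p | p <;> exact tb_abs _) S.tw S.tw_nonneg
  refine ⟨ε, hε, ?_⟩
  set D : CC d → ℝ := fun c => ∑ i ∈ S.R, (ε i - S.x i) * S.z i c with hD
  have htot : ∑ k, S.tw k * Real.exp (ts k * D (tc k)) ≤ 5 * ZZ d := by
    refine hsum.trans ?_
    calc Real.exp (1 / 8) * ∑ k, S.tw k ≤ (5 / 4) * (4 * ZZ d) := by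
          apply mul_le_mul exp_eighth S.tw_sum (Finset.sum_nonneg (fun k _ => S.tw_nonneg k)) (by norm_num)
      _ = 5 * ZZ d := by ring
  have hterm : ∀ k, S.tw k * Real.exp (ts k * D (tc k)) ≤ 5 * ZZ d := by
    intro k
    refine le_trans ?_ htot
    exact Finset.single_le_sum (f := fun k => S.tw k * Real.exp (ts k * D (tc k)))
      (fun k _ => mul_nonneg (S.tw_nonneg k) (Real.exp_pos _).le) (Finset.mem_univ k)
  -- bound of all coordinates
  have hDc : ∀ c, |D c| ≤ Lf d - 7 := by
    intro c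
    have hb : ∀ b, tb b * D c ≤ Real.log (10 * Mr d) := by
      intro b
      have h1 := hterm (Sum.inl (c, b))
      simp only [tc, ts, tw] at h1
      have h2 : ZZ d / (2 * Mr d) * Real.exp (tb b * D c) ≤ 5 * ZZ d := by
        refine le_trans ?_ h1
        apply mul_le_mul_of_nonneg_right _ (Real.exp_pos _).le
        split_ifs <;> linarith
      have h3 : Real.exp (tb b * D c) ≤ 10 * Mr d := by
        have h4 : ZZ d / (2 * Mr d) * Real.exp (tb b * D c) = ZZ d * (Real.exp (tb b * D c) / (2 * Mr d)) := by ring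
        rw [h4] at h2
        have h5 : Real.exp (tb b * D c) / (2 * Mr d) ≤ 5 := by
          by_contra hcon
          push Not at hcon
          nlinarith
        rw [div_le_iff₀ (by positivity)] at h5
        linarith
      rw [Real.le_log_iff_exp_le (by positivity)]
      exact h3
    have h1 := hb true
    have h2 := hb false
    simp only [tb, if_true, Bool.false_eq_true, if_false] at h1 h2
    rw [← lamD_eq, abs_le]
    constructor <;> linarith
  -- bound of the weight coordinate
  have hDw : |D (Sum.inr (Sum.inr ()))| ≤ 4 * Real.log 5 := by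
    have hb : ∀ b, tb b * D (Sum.inr (Sum.inr ())) ≤ Real.log 5 := by
      intro b
      have h1 := hterm (Sum.inl (Sum.inr (Sum.inr ()), b))
      simp only [tc, ts, tw, if_true] at h1
      have h2 : ZZ d * Real.exp (tb b * D (Sum.inr (Sum.inr ()))) ≤ 5 * ZZ d := by
        refine le_trans ?_ h1
        apply mul_le_mul_of_nonneg_right _ (Real.exp_pos _).le
        have : 0 < ZZ d / (2 * Mr d) := by positivity
        linarith
      rw [Real.le_log_iff_exp_le (by norm_num)]
      nlinarith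
    have h1 := hb true
    have h2 := hb false
    simp only [tb, if_true, Bool.false_eq_true, if_false] at h1 h2
    rw [abs_le]
    constructor <;> linarith
  -- general splitting of signed sums
  have hsplit : ∀ f : ι → ℝ, ∑ i ∈ S.R, ε i * f i = ∑ i ∈ S.R, S.x i * f i + ∑ i ∈ S.R, (ε i - S.x i) * f i := by
    intro f
    rw [← Finset.sum_add_distrib]
    apply Finset.sum_congr rfl; intro i _; ring
  have hDj : ∀ j, D (Sum.inl j) = S.s j * ((∑ i ∈ S.R, (ε i - S.x i) * S.v i j) / 2) := by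
    intro j
    simp only [hD, z]
    rw [Finset.sum_div, Finset.mul_sum]
    apply Finset.sum_congr rfl; intro i _; ring
  have hLf := S.Lf_ge'
  refine ⟨?_, ?_, ?_, ?_, ?_⟩
  · -- fast coordinates
    intro j hj
    have hng : ¬ S.gran j := fun hg => (S.hgran j hg).1 hj
    have h1 := hDc (Sum.inl j)
    rw [hDj, s, if_neg hng, one_mul] at h1
    have h2 := S.drift_fast hj
    rw [hsplit]
    rw [abs_le] at *
    constructor <;> linarith [h1.1, h1.2, h2.1, h2.2]
  · -- window coordinates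
    have h0 : ∑ j, (if S.win j then S.u j * (Real.exp ((S.h j + D (Sum.inl j)) / 4) +
        Real.exp (-(S.h j + D (Sum.inl j)) / 4)) else 0) ≤ 5 * ZZ d := by
      refine le_trans ?_ htot
      rw [Fintype.sum_sum_type]
      have h1 : 0 ≤ ∑ p : CC d × Bool, S.tw (Sum.inl p) * Real.exp (ts (Sum.inl p) * D (tc (Sum.inl p))) :=
        Finset.sum_nonneg (fun p _ => mul_nonneg (S.tw_nonneg _) (Real.exp_pos _).le)
      refine le_trans (le_of_eq ?_) (le_add_of_nonneg_left h1)
      rw [Fintype.sum_prod_type]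
      apply Finset.sum_congr rfl; intro j _
      simp only [Fintype.sum_bool, tw, ts, tc, tb, if_true, Bool.false_eq_true, if_false]
      by_cases hj : S.win j
      · simp only [hj, if_true]
        rw [mul_assoc, mul_assoc, ← Real.exp_add, ← Real.exp_add, ← mul_add]
        congr 3 <;> ring
      · simp [hj]
    calc _ ≤ ∑ j, Real.exp (1 / 8) * (if S.win j then S.u j * (Real.exp ((S.h j + D (Sum.inl j)) / 4) +
        Real.exp (-(S.h j + D (Sum.inl j)) / 4)) else 0) := by
          apply Finset.sum_le_sum; intro j _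
          by_cases hj : S.win j
          · simp only [hj, if_true]
            have hw := S.hwin j hj
            have h1 := hDj j
            rw [s, if_neg hw.2, one_mul] at h1
            have h2 := S.drift_slow hw.1
            rw [abs_le] at h2
            rw [hsplit, h1]
            set A := (∑ i ∈ S.R, (ε i - S.x i) * S.v i j) / 2
            set B := ∑ i ∈ S.R, S.x i * S.v i j
            have h3 : (S.h j + (B + ∑ i ∈ S.R, (ε i - S.x i) * S.v i j) / 2) = S.h j + A + B / 2 := by
              simp only [A]; ring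
            rw [h3]
            have h4 : Real.exp ((S.h j + A + B / 2) / 4) ≤ Real.exp (1 / 8) * Real.exp ((S.h j + A) / 4) := by
              rw [← Real.exp_add]
              apply Real.exp_le_exp.mpr
              linarith [h2.2]
            have h5 : Real.exp (-(S.h j + A + B / 2) / 4) ≤ Real.exp (1 / 8) * Real.exp (-(S.h j + A) / 4) := by
              rw [← Real.exp_add]
              apply Real.exp_le_exp.mpr
              linarith [h2.1]
            have hu := S.hu j
            calc S.u j * (Real.exp ((S.h j + A + B / 2) / 4) + Real.exp (-(S.h j + A + B / 2) / 4))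
                ≤ S.u j * (Real.exp (1 / 8) * Real.exp ((S.h j + A) / 4) +
                    Real.exp (1 / 8) * Real.exp (-(S.h j + A) / 4)) :=
                  mul_le_mul_of_nonneg_left (add_le_add h4 h5) hu
              _ = _ := by ring
          · simp [hj]
      _ ≤ Real.exp (1 / 8) * (5 * ZZ d) := by
          rw [← Finset.mul_sum]
          exact mul_le_mul_of_nonneg_left h0 (Real.exp_pos _).le
  · -- granular coordinates
    intro j hj
    have hg := S.hgran j hj
    have h1 := hDc (Sum.inl j)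
    rw [hDj, s, if_pos hj, abs_mul, abs_of_pos (by have := hg.2.1; positivity : 0 < 1 / S.τ j)] at h1
    have h2 := S.drift_slow' hg.1
    have h3 : |(∑ i ∈ S.R, (ε i - S.x i) * S.v i j) / 2| ≤ (Lf d - 7) * S.τ j := by
      rw [one_div, inv_mul_le_iff₀ hg.2.1] at h1
      linarith
    rw [hsplit]
    rw [abs_le] at *
    constructor <;> nlinarith [h3.1, h3.2, h2.1, h2.2]
  · -- covariance
    intro j hj m
    have h1 := hDc (Sum.inr (Sum.inl (j, m)))
    have h2 : D (Sum.inr (Sum.inl (j, m))) = (∑ i ∈ S.R, (ε i - S.x i) * (S.v i j * S.v i m)) / 2 := by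
      simp only [hD, z]
      rw [Finset.sum_div]
      apply Finset.sum_congr rfl; intro i _; ring
    rw [h2] at h1
    have h3 := S.matrix_bias hj m
    rw [hsplit]
    rw [abs_le] at *
    constructor <;> linarith [h1.1, h1.2, h3.1, h3.2]
  · -- weights
    have hnoise : |∑ i ∈ S.R, (ε i - S.x i) * S.w i| ≤ ∑ i ∈ S.U, S.w i := by
      have h1 : ∑ i ∈ S.R, (ε i - S.x i) * S.w i = 2 * S.wm * D (Sum.inr (Sum.inr ())) := by
        simp only [hD, z]
        rw [Finset.mul_sum]
        apply Finset.sum_congr rfl; intro i hi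
        by_cases hwm : S.wm = 0
        · have h2 := S.hwR i hi
          have h3 := S.hw i
          have h4 : S.w i = 0 := by linarith
          rw [h4, hwm]; ring
        · field_simp
      have h2 : 13 * S.wm ≤ ∑ i ∈ S.U, S.w i := by
        calc 13 * S.wm = ∑ _i ∈ S.U, S.wm := by simp [S.hU]
          _ ≤ ∑ i ∈ S.U, S.w i := Finset.sum_le_sum (fun i hi => S.hwU i hi)
      rw [h1, abs_mul, abs_of_nonneg (by have := S.hwm; positivity)]
      have h3 := eight_log_five
      have h4 : 2 * S.wm * |D (Sum.inr (Sum.inr ()))| ≤ 2 * S.wm * (4 * Real.log 5) :=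
        mul_le_mul_of_nonneg_left hDw (by have := S.hwm; positivity)
      have h5 := S.hwm
      nlinarith
    have hbias : |∑ i ∈ S.R, S.x i * S.w i| ≤ (1 / 10) * ∑ i ∈ S.R, S.w i := by
      calc |∑ i ∈ S.R, S.x i * S.w i| ≤ ∑ i ∈ S.R, |S.x i * S.w i| := Finset.abs_sum_le_sum_abs _ _
        _ ≤ ∑ i ∈ S.R, (1 / 10) * S.w i := by
            apply Finset.sum_le_sum; intro i _
            rw [abs_mul, abs_of_nonneg (S.hw i)]
            exact mul_le_mul_of_nonneg_right (S.x_abs_le i) (S.hw i)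
        _ = _ := by rw [Finset.mul_sum]
    rw [hsplit]
    calc _ ≤ |∑ i ∈ S.R, S.x i * S.w i| + |∑ i ∈ S.R, (ε i - S.x i) * S.w i| := abs_add_le _ _
      _ ≤ _ := by linarith

end SplitData

end Vale.Agent.P262
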