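import Mathlib
import Vale.Agent.P262.Split2

namespace Vale.Agent.P262

open scoped BigOperators Classical

section Levels

variable {d : ℕ} (α : Fin d → ℝ)

/-- first slow level of coordinate `j`. -/
noncomputable def tt (j : Fin d) : ℕ := sInf {l : ℕ | α j / 2 ^ l < KK d}

lemma lt_tt {j : Fin d} {l : ℕ} (h : l < tt α j) : KK d ≤ α j / 2 ^ l := by
  by_contra hcon
  push Not at hcon
  exact absurd (Nat.sInf_le (show l ∈ {l : ℕ | α j / 2 ^ l < KK d} from hcon)) (not_le.mpr h)

lemma tt_spec (hd : 1 ≤ d) (j : Fin d) : α j / 2 ^ (tt α j) < KK d := by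
  have hne : {l : ℕ | α j / 2 ^ l < KK d}.Nonempty := by
    have hK := KK_pos d hd
    obtain ⟨l, hl⟩ := pow_unbounded_of_one_lt (α j / KK d) (by norm_num : (1 : ℝ) < 2)
    refine ⟨l, ?_⟩
    show α j / 2 ^ l < KK d
    rw [div_lt_iff₀ hK] at hl
    rw [div_lt_iff₀ (by positivity)]
    linarith
  exact Nat.sInf_mem hne

/-- energy scale of slow coordinates. -/
noncomputable def rho (l : ℕ) (j : Fin d) : ℝ := KK d * (16 / 25) ^ (l - tt α j)

/-- size scale of slow coordinates. -/
noncomputable def tau (l : ℕ) (j : Fin d) : ℝ := tau0 d * (4 / 5) ^ (l - tt α j)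

lemma tau_sq (hd : 1 ≤ d) (l : ℕ) (j : Fin d) : (tau α l j) ^ 2 = Wm d * rho α l j := by
  unfold tau rho tau0
  have h1 := Wm_pos d hd
  have h2 := KK_pos d hd
  rw [mul_pow, Real.sq_sqrt (by positivity), ← pow_mul, mul_comm _ 2, pow_mul]
  norm_num
  ring

lemma tau0_ge (hd : 1 ≤ d) : 1 ≤ tau0 d := by
  unfold tau0
  rw [Real.one_le_sqrt]
  have h1 : (1 : ℝ) ≤ d := by exact_mod_cast hd
  have h2 := KK_ge d hd
  unfold Wm
  nlinarith

lemma tau_pos (hd : 1 ≤ d) (l : ℕ) (j : Fin d) : 0 < tau α l j := by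
  have := tau0_ge hd
  unfold tau
  positivity

lemma rho_pos (hd : 1 ≤ d) (l : ℕ) (j : Fin d) : 0 < rho α l j := by
  have := KK_pos d hd
  unfold rho
  positivity

lemma tau0_nw (hd : 1 ≤ d) : tau0 d * (4 / 5) ^ (nw d) ≤ 1 := by
  have h1 := tau0_ge hd
  have h2 : (5 * Real.log (tau0 d)) ≤ (nw d : ℝ) := Nat.le_ceil _
  have h3 : Real.log (tau0 d * (4 / 5) ^ (nw d)) ≤ 0 := by
    rw [Real.log_mul (by positivity) (by positivity), Real.log_pow]
    have h4 : Real.log (4 / 5) ≤ -(1 / 5) := by
      have := Real.log_le_sub_one_of_pos (show (0 : ℝ) < 4 / 5 by norm_num)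
      linarith
    have h5 : 0 ≤ Real.log (tau0 d) := Real.log_nonneg h1
    nlinarith
  have h6 : 0 < tau0 d * (4 / 5) ^ (nw d) := by positivity
  by_contra hcon
  push Not at hcon
  exact absurd (Real.log_pos hcon) (not_lt.mpr h3)

/-- granular coordinates have `τ ≤ (4/5)^n`. -/
lemma tau_gran (hd : 1 ≤ d) {l : ℕ} {j : Fin d} (h : tt α j + nw d ≤ l) :
    tau α l j ≤ (4 / 5) ^ (l - tt α j - nw d) := by
  unfold tau
  have h1 : l - tt α j = nw d + (l - tt α j - nw d) := by omega
  conv_lhs => rw [h1]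
  rw [pow_add, ← mul_assoc]
  have h2 := tau0_nw hd
  have h3 : (0 : ℝ) ≤ (4 / 5) ^ (l - tt α j - nw d) := by positivity
  nlinarith

/-- potential of the window coordinates. -/
noncomputable def Phi (l : ℕ) (E : Fin d → ℝ) : ℝ :=
  ∑ j, if (tt α j ≤ l ∧ l < tt α j + nw d) then
    (1 / 64) ^ (l - tt α j) * (Real.exp (E j / 4) + Real.exp (-(E j) / 4)) else 0

/-- good endpoints at level `l`. -/
structure Good (l : ℕ) (E : Fin d → ℝ) : Prop where
  fast : ∀ j, l < tt α j → |E j| ≤ Lf d
  win : Phi α l E ≤ ZZ d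
  gran : ∀ j, tt α j + nw d ≤ l → |E j| ≤ Lw d + 5 * Lf d * (1 - (4 / 5) ^ (l - tt α j - nw d))

lemma Lf_le_Lw (hd : 1 ≤ d) : Lf d ≤ Lw d := by
  unfold Lw ZZ
  have h1 : (1 : ℝ) ≤ d := by exact_mod_cast hd
  have h2 : Real.exp (Lf d / 4) ≤ 4 * (d : ℝ) * Real.exp (Lf d / 4) * 64 ^ (nw d) := by
    have h3 : (1 : ℝ) ≤ 64 ^ (nw d) := one_le_pow₀ (by norm_num)
    have h4 := Real.exp_pos (Lf d / 4)
    have h5 : Real.exp (Lf d / 4) ≤ 4 * (d : ℝ) * Real.exp (Lf d / 4) := by nlinarith
    nlinarith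
  have h6 : Lf d / 4 ≤ Real.log (4 * (d : ℝ) * Real.exp (Lf d / 4) * 64 ^ (nw d)) := by
    rw [Real.le_log_iff_exp_le (by positivity)]
    exact h2
  linarith

/-- a window term bounds the coordinate. -/
lemma abs_le_of_term {E c : ℝ} {n : ℕ} (hc : 0 < c)
    (h : (1 / 64 : ℝ) ^ n * (Real.exp (E / 4) + Real.exp (-E / 4)) ≤ c) : |E| ≤ 4 * Real.log (c * 64 ^ n) := by
  have h1 : Real.exp (|E| / 4) ≤ Real.exp (E / 4) + Real.exp (-E / 4) := by
    rcases abs_cases E with ⟨h2, _⟩ | ⟨h2, _⟩
    · rw [h2]; linarith [Real.exp_pos (-E / 4)]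
    · rw [h2]; linarith [Real.exp_pos (E / 4)]
  have h2 : Real.exp (|E| / 4) ≤ c * 64 ^ n := by
    have h3 : (1 / 64 : ℝ) ^ n * Real.exp (|E| / 4) ≤ c :=
      (mul_le_mul_of_nonneg_left h1 (by positivity)).trans h
    have h4 : (1 / 64 : ℝ) ^ n * 64 ^ n = 1 := by
      rw [← mul_pow]; norm_num
    calc Real.exp (|E| / 4) = ((1 / 64 : ℝ) ^ n * Real.exp (|E| / 4)) * 64 ^ n := by
          rw [mul_right_comm, h4, one_mul]
      _ ≤ c * 64 ^ n := mul_le_mul_of_nonneg_right h3 (by positivity)
  have h5 : |E| / 4 ≤ Real.log (c * 64 ^ n) := by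
    rw [Real.le_log_iff_exp_le (by positivity)]
    exact h2
  linarith

lemma term_le_of_sum {c : ℝ} {l : ℕ} {E : Fin d → ℝ}
    (h : ∑ j, (if (tt α j ≤ l ∧ l < tt α j + nw d) then
    (1 / 64 : ℝ) ^ (l - tt α j) * (Real.exp (E j / 4) + Real.exp (-(E j) / 4)) else 0) ≤ c)
    {j : Fin d} (h1 : tt α j ≤ l) (h2 : l < tt α j + nw d) :
    (1 / 64 : ℝ) ^ (l - tt α j) * (Real.exp (E j / 4) + Real.exp (-(E j) / 4)) ≤ c := by
  have h3 := Finset.single_le_sum (f := fun j => (if (tt α j ≤ l ∧ l < tt α j + nw d) then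
    (1 / 64 : ℝ) ^ (l - tt α j) * (Real.exp (E j / 4) + Real.exp (-(E j) / 4)) else 0)) (by
      intro k _
      split_ifs
      · positivity
      · exact le_rfl) (Finset.mem_univ j)
  simp only [h1, h2, and_self, if_true] at h3
  exact h3.trans h

lemma log_le_Lw (hd : 1 ≤ d) {n : ℕ} (hn : n ≤ nw d) : 4 * Real.log (ZZ d * 64 ^ n) ≤ Lw d := by
  unfold Lw
  have hZ := ZZ_pos d hd
  have h1 : Real.log (ZZ d * 64 ^ n) ≤ Real.log (ZZ d * 64 ^ (nw d)) := by
    apply Real.log_le_log (by positivity)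
    apply mul_le_mul_of_nonneg_left _ hZ.le
    exact pow_le_pow_right₀ (by norm_num) hn
  linarith

/-- uniform bound of good endpoints. -/
lemma Good.bound (hd : 1 ≤ d) {l : ℕ} {E : Fin d → ℝ} (h : Good α l E) (j : Fin d) :
    |E j| ≤ Lw d + 5 * Lf d := by
  have hL := Lf_ge d hd
  have hLw := Lf_le_Lw hd
  by_cases h1 : l < tt α j
  · have := h.fast j h1
    linarith
  · push Not at h1
    by_cases h2 : l < tt α j + nw d
    · have h3 := abs_le_of_term (ZZ_pos d hd) (term_le_of_sum α h.win h1 h2)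
      have h4 := log_le_Lw hd (show l - tt α j ≤ nw d by omega)
      linarith
    · push Not at h2
      have h3 := h.gran j h2
      have h4 : (0 : ℝ) ≤ (4 / 5) ^ (l - tt α j - nw d) := by positivity
      nlinarith

lemma new_sum (hd : 1 ≤ d) : ∑ _j : Fin d, 2 * Real.exp (Lf d / 4) = ZZ d / 2 := by
  simp only [Finset.sum_const, Finset.card_univ, Fintype.card_fin, nsmul_eq_mul]
  unfold ZZ
  ring

/-- persistence of good endpoints. -/
lemma Good.persist (hd : 1 ≤ d) {l : ℕ} {E : Fin d → ℝ} (h : Good α l E) : Good α (l + 1) E := by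
  have hL := Lf_ge d hd
  have hLw := Lf_le_Lw hd
  have hZ := ZZ_pos d hd
  refine ⟨fun j hj => h.fast j (by omega), ?_, ?_⟩
  · have h1 : Phi α (l + 1) E ≤ (1 / 64) * Phi α l E + ∑ _j : Fin d, 2 * Real.exp (Lf d / 4) := by
      unfold Phi
      rw [Finset.mul_sum, ← Finset.sum_add_distrib]
      apply Finset.sum_le_sum
      intro j _
      by_cases hj : tt α j ≤ l
      · by_cases hj2 : l + 1 < tt α j + nw d
        · have e1 : (tt α j ≤ l + 1 ∧ l + 1 < tt α j + nw d) := ⟨by omega, hj2⟩
          have e2 : (tt α j ≤ l ∧ l < tt α j + nw d) := ⟨hj, by omega⟩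
          rw [if_pos e1, if_pos e2]
          have e3 : l + 1 - tt α j = (l - tt α j) + 1 := by omega
          rw [e3, pow_succ]
          have : 0 < Real.exp (Lf d / 4) := Real.exp_pos _
          nlinarith
        · have e1 : ¬ (tt α j ≤ l + 1 ∧ l + 1 < tt α j + nw d) := fun hh => hj2 hh.2
          rw [if_neg e1]
          split_ifs <;> positivity
      · push Not at hj
        have e2 : ¬ (tt α j ≤ l ∧ l < tt α j + nw d) := fun hh => absurd hh.1 (not_le.mpr hj)
        rw [if_neg e2, mul_zero, zero_add]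
        split_ifs with e1
        · have e3 : l + 1 - tt α j = 0 := by omega
          rw [e3, pow_zero, one_mul]
          have e4 := h.fast j hj
          have e5 : Real.exp (E j / 4) ≤ Real.exp (Lf d / 4) := by
            apply Real.exp_le_exp.mpr
            linarith [(abs_le.mp e4).2]
          have e6 : Real.exp (-(E j) / 4) ≤ Real.exp (Lf d / 4) := by
            apply Real.exp_le_exp.mpr
            linarith [(abs_le.mp e4).1]
          linarith
        · positivity
    rw [new_sum hd] at h1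
    have h2 := h.win
    linarith
  · intro j hj
    by_cases h1 : tt α j + nw d ≤ l
    · have h2 := h.gran j h1
      have h3 : l + 1 - tt α j - nw d = (l - tt α j - nw d) + 1 := by omega
      rw [h3, pow_succ]
      have h4 : (0 : ℝ) ≤ (4 / 5) ^ (l - tt α j - nw d) := by positivity
      nlinarith [mul_nonneg (by linarith : (0:ℝ) ≤ Lf d) h4]
    · have h2 : l + 1 = tt α j + nw d := by omega
      have h3 : l + 1 - tt α j - nw d = 0 := by omega
      rw [h3, pow_zero, sub_self, mul_zero, add_zero]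
      by_cases h4 : nw d = 0
      · have h5 := h.fast j (by omega)
        linarith
      · have h5 := abs_le_of_term hZ (term_le_of_sum α h.win (show tt α j ≤ l by omega) (by omega))
        have h6 := log_le_Lw hd (show l - tt α j ≤ nw d by omega)
        linarith

/-- midpoints are good. -/
lemma Good.mid (hd : 1 ≤ d) {l : ℕ} {h e δ : Fin d → ℝ}
    (hfast : ∀ j, l < tt α j → |e j| ≤ Lf d - 13 / 2)
    (hwin : ∑ j, (if (tt α j ≤ l ∧ l < tt α j + nw d) then
      (1 / 64 : ℝ) ^ (l - tt α j) * (Real.exp (e j / 4) + Real.exp (-(e j) / 4)) else 0) ≤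
        Real.exp (1 / 8) * (5 * ZZ d))
    (hgran : ∀ j, tt α j + nw d ≤ l → |e j - h j| ≤ (Lf d - 13 / 2) * tau α l j)
    (hh : ∀ j, tt α j + nw d ≤ l → |h j| ≤ Lw d + 5 * Lf d * (1 - (4 / 5) ^ (l - tt α j - nw d)))
    (hδ : ∀ j, |δ j| ≤ 13 / 2) (hδ' : ∀ j, tt α j + nw d ≤ l → |δ j| ≤ 13 / 2 * tau α l j) :
    Good α (l + 1) (fun j => e j + δ j) := by
  have hL := Lf_ge d hd
  have hLw := Lf_le_Lw hd
  have hZ := ZZ_pos d hd
  have hfast' : ∀ j, l < tt α j → |e j + δ j| ≤ Lf d := by
    intro j hj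
    have h1 := hfast j hj
    have h2 := hδ j
    rw [abs_le] at *
    constructor <;> linarith [h1.1, h1.2, h2.1, h2.2]
  have h78 := exp_seven_fourths
  refine ⟨fun j hj => hfast' j (by omega), ?_, ?_⟩
  · have h1 : Phi α (l + 1) (fun j => e j + δ j) ≤ (1 / 64) * Real.exp (13 / 8) * (∑ j, (if (tt α j ≤ l ∧ l < tt α j + nw d) then
      (1 / 64 : ℝ) ^ (l - tt α j) * (Real.exp (e j / 4) + Real.exp (-(e j) / 4)) else 0)) +
        ∑ _j : Fin d, 2 * Real.exp (Lf d / 4) := by
      unfold Phi
      rw [Finset.mul_sum, ← Finset.sum_add_distrib]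
      apply Finset.sum_le_sum
      intro j _
      by_cases hj : tt α j ≤ l
      · by_cases hj2 : l + 1 < tt α j + nw d
        · have e1 : (tt α j ≤ l + 1 ∧ l + 1 < tt α j + nw d) := ⟨by omega, hj2⟩
          have e2 : (tt α j ≤ l ∧ l < tt α j + nw d) := ⟨hj, by omega⟩
          rw [if_pos e1, if_pos e2]
          have e3 : l + 1 - tt α j = (l - tt α j) + 1 := by omega
          rw [e3, pow_succ]
          have e4 := hδ j
          have e5 : Real.exp ((e j + δ j) / 4) ≤ Real.exp (13 / 8) * Real.exp (e j / 4) := by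
            rw [← Real.exp_add]
            apply Real.exp_le_exp.mpr
            linarith [(abs_le.mp e4).2]
          have e6 : Real.exp (-(e j + δ j) / 4) ≤ Real.exp (13 / 8) * Real.exp (-(e j) / 4) := by
            rw [← Real.exp_add]
            apply Real.exp_le_exp.mpr
            linarith [(abs_le.mp e4).1]
          have e7 : (0 : ℝ) ≤ (1 / 64) ^ (l - tt α j) * (1 / 64) := by positivity
          have e8 := mul_le_mul_of_nonneg_left (add_le_add e5 e6) e7
          have e9 : 0 < Real.exp (Lf d / 4) := Real.exp_pos _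
          calc (1 / 64 : ℝ) ^ (l - tt α j) * (1 / 64) * (Real.exp ((e j + δ j) / 4) + Real.exp (-(e j + δ j) / 4))
              ≤ (1 / 64 : ℝ) ^ (l - tt α j) * (1 / 64) * (Real.exp (13 / 8) * Real.exp (e j / 4) +
                  Real.exp (13 / 8) * Real.exp (-(e j) / 4)) := e8
            _ = 1 / 64 * Real.exp (13 / 8) *
                ((1 / 64) ^ (l - tt α j) * (Real.exp (e j / 4) + Real.exp (-(e j) / 4))) := by ring
            _ ≤ _ := by linarith
        · have e1 : ¬ (tt α j ≤ l + 1 ∧ l + 1 < tt α j + nw d) := fun hh => hj2 hh.2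
          rw [if_neg e1]
          split_ifs <;> positivity
      · push Not at hj
        have e2 : ¬ (tt α j ≤ l ∧ l < tt α j + nw d) := fun hh => absurd hh.1 (not_le.mpr hj)
        rw [if_neg e2, mul_zero, zero_add]
        split_ifs with e1
        · have e3 : l + 1 - tt α j = 0 := by omega
          rw [e3, pow_zero, one_mul]
          have e4 := hfast' j hj
          have e5 : Real.exp ((e j + δ j) / 4) ≤ Real.exp (Lf d / 4) := by
            apply Real.exp_le_exp.mpr
            linarith [(abs_le.mp e4).2]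
          have e6 : Real.exp (-(e j + δ j) / 4) ≤ Real.exp (Lf d / 4) := by
            apply Real.exp_le_exp.mpr
            linarith [(abs_le.mp e4).1]
          linarith
        · positivity
    rw [new_sum hd] at h1
    have h2 : (1 / 64) * Real.exp (13 / 8) * (∑ j, (if (tt α j ≤ l ∧ l < tt α j + nw d) then
      (1 / 64 : ℝ) ^ (l - tt α j) * (Real.exp (e j / 4) + Real.exp (-(e j) / 4)) else 0)) ≤
        (1 / 64) * Real.exp (13 / 8) * (Real.exp (1 / 8) * (5 * ZZ d)) :=
      mul_le_mul_of_nonneg_left hwin (by positivity)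
    have h3 : (1 / 64) * Real.exp (13 / 8) * (Real.exp (1 / 8) * (5 * ZZ d)) =
        (1 / 64) * (Real.exp (7 / 4) * 5) * ZZ d := by
      have : Real.exp (7 / 4) = Real.exp (13 / 8) * Real.exp (1 / 8) := by
        rw [← Real.exp_add]; norm_num
      rw [this]; ring
    rw [h3] at h2
    nlinarith
  · intro j hj
    by_cases h1 : tt α j + nw d ≤ l
    · have h2 := hgran j h1
      have h3 : l + 1 - tt α j - nw d = (l - tt α j - nw d) + 1 := by omega
      have h4 := hδ' j h1
      have h5 := hh j h1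
      have h6 := tau_gran α hd h1
      rw [h3, pow_succ]
      have h7 : |e j + δ j| ≤ |h j| + |e j - h j| + |δ j| := by
        have : e j + δ j = h j + (e j - h j) + δ j := by ring
        rw [this]
        exact (abs_add_le _ _).trans (add_le_add (abs_add_le _ _) le_rfl)
      have h8 : |e j - h j| + |δ j| ≤ Lf d * (4 / 5) ^ (l - tt α j - nw d) := by
        have : (Lf d - 13 / 2) * tau α l j + 13 / 2 * tau α l j = Lf d * tau α l j := by ring
        have h9 : Lf d * tau α l j ≤ Lf d * (4 / 5) ^ (l - tt α j - nw d) :=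
          mul_le_mul_of_nonneg_left h6 (by linarith)
        linarith
      nlinarith
    · have h2 : l + 1 = tt α j + nw d := by omega
      have h3 : l + 1 - tt α j - nw d = 0 := by omega
      rw [h3, pow_zero, sub_self, mul_zero, add_zero]
      by_cases h4 : nw d = 0
      · have h5 := hfast' j (by omega)
        linarith
      · have h5 := abs_le_of_term (by positivity) (term_le_of_sum α hwin (show tt α j ≤ l by omega) (by omega))
        have h6 := hδ j
        have h7 : |e j + δ j| ≤ |e j| + |δ j| := abs_add_le _ _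
        have h8 : 4 * Real.log (Real.exp (1 / 8) * (5 * ZZ d) * 64 ^ (l - tt α j)) + 13 / 2 ≤ Lw d := by
          unfold Lw
          have h9 : nw d = (l - tt α j) + 1 := by omega
          rw [h9, pow_succ]
          have h10 : Real.log (Real.exp (1 / 8) * (5 * ZZ d) * 64 ^ (l - tt α j)) + 13 / 8 ≤
              Real.log (ZZ d * (64 ^ (l - tt α j) * 64)) := by
            rw [Real.le_log_iff_exp_le (by positivity), Real.exp_add, Real.exp_log (by positivity)]
            have h11 : Real.exp (1 / 8) * (5 * ZZ d) * 64 ^ (l - tt α j) * Real.exp (13 / 8) =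
                (Real.exp (7 / 4) * 5) * (ZZ d * 64 ^ (l - tt α j)) := by
              have : Real.exp (7 / 4) = Real.exp (13 / 8) * Real.exp (1 / 8) := by
                rw [← Real.exp_add]; norm_num
              rw [this]; ring
            rw [h11]
            have h12 : 0 < ZZ d * 64 ^ (l - tt α j) := by positivity
            nlinarith
          linarith
        linarith

end Levels

end Vale.Agent.P262
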