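import Mathlib
import Vale.Agent.P262.Rec

namespace Vale.Agent.P262

open scoped BigOperators Classical

section Node

variable {d : ℕ} {ι : Type} (α : Fin d → ℝ) (v : ι → Fin d → ℝ)

/-- slow weight of an element. -/
noncomputable def wt (l : ℕ) (i : ι) : ℝ := ∑ j, if tt α j ≤ l then (v i j) ^ 2 / rho α l j else 0

lemma wt_nonneg (hd : 1 ≤ d) (l : ℕ) (i : ι) : 0 ≤ wt α v l i := by
  apply Finset.sum_nonneg
  intro j _
  split_ifs
  · have := rho_pos α hd l j
    positivity
  · exact le_rfl

/-- node invariant. -/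
structure Inv (l : ℕ) (a b : Fin d → ℝ) (V : Finset ι) : Prop where
  sum : ∀ j, b j = a j + ∑ i ∈ V, v i j
  A : ∀ j, l < tt α j → ∀ k, |∑ i ∈ V, v i j * v i k - (if j = k then α j / 2 ^ l else 0)| ≤
    2 * Lf d + 10 * Lf d * d * Real.sqrt (α j / 2 ^ l / KK d)
  W : ∑ i ∈ V, wt α v l i ≤ Wm d
  ga : Good α l a
  gb : Good α l b

lemma Inv.slow (hd : 1 ≤ d) {l : ℕ} {a b : Fin d → ℝ} {V : Finset ι} (h : Inv α v l a b V)
    {j : Fin d} (hj : tt α j ≤ l) : ∑ i ∈ V, (v i j) ^ 2 ≤ (tau α l j) ^ 2 := by
  rw [tau_sq α hd]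
  have hr := rho_pos α hd l j
  have h1 : ∑ i ∈ V, (v i j) ^ 2 / rho α l j ≤ Wm d := by
    refine le_trans ?_ h.W
    apply Finset.sum_le_sum
    intro i _
    unfold wt
    have h2 := Finset.single_le_sum (f := fun j => (if tt α j ≤ l then (v i j) ^ 2 / rho α l j else 0)) (by
      intro k _
      have := rho_pos α hd l k
      split_ifs
      · positivity
      · exact le_rfl) (Finset.mem_univ j)
    simpa only [hj, if_true] using h2
  rw [← Finset.sum_div, div_le_iff₀ hr] at h1
  exact h1

lemma Inv.gran (hd : 1 ≤ d) {l : ℕ} {a b : Fin d → ℝ} {V : Finset ι} (h : Inv α v l a b V) {i : ι} (hi : i ∈ V) :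
    ∑ j, (if tt α j + nw d ≤ l then (v i j) ^ 2 / (tau α l j) ^ 2 else 0) ≤ 1 := by
  have hW := Wm_pos d hd
  have h1 : wt α v l i ≤ Wm d :=
    (Finset.single_le_sum (f := fun i => wt α v l i) (fun i _ => wt_nonneg α v hd l i) hi).trans h.W
  have h2 : ∑ j, (if tt α j + nw d ≤ l then (v i j) ^ 2 / (tau α l j) ^ 2 else 0) ≤ wt α v l i / Wm d := by
    unfold wt
    rw [Finset.sum_div]
    apply Finset.sum_le_sum
    intro j _
    have hr := rho_pos α hd l j
    by_cases hj : tt α j + nw d ≤ l
    · rw [if_pos hj, if_pos (by omega), tau_sq α hd]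
      rw [div_div, mul_comm]
    · rw [if_neg hj]
      split_ifs <;> positivity
  refine h2.trans ?_
  rw [div_le_one hW]
  exact h1

/-- the `k` heaviest elements. -/
lemma exists_heaviest (V : Finset ι) (w : ι → ℝ) (k : ℕ) (hk : k ≤ V.card) :
    ∃ U ⊆ V, U.card = k ∧ ∀ i ∈ V \ U, ∀ u ∈ U, w i ≤ w u := by
  induction k with
  | zero => exact ⟨∅, by simp, by simp, by simp⟩
  | succ k ih =>
    obtain ⟨U, hUV, hUk, hU⟩ := ih (by omega)
    have hne : (V \ U).Nonempty := by
      rw [← Finset.card_pos, Finset.card_sdiff_of_subset hUV]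
      omega
    obtain ⟨m, hm, hmax⟩ := Finset.exists_max_image (V \ U) w hne
    have hm' := Finset.mem_sdiff.mp hm
    refine ⟨insert m U, ?_, ?_, ?_⟩
    · intro i hi
      rcases Finset.mem_insert.mp hi with rfl | hi
      · exact hm'.1
      · exact hUV hi
    · rw [Finset.card_insert_of_notMem hm'.2, hUk]
    · intro i hi u hu
      have hi' := Finset.mem_sdiff.mp hi
      have hi2 : i ∈ V \ U := Finset.mem_sdiff.mpr ⟨hi'.1, fun hh => hi'.2 (Finset.mem_insert_of_mem hh)⟩
      rcases Finset.mem_insert.mp hu with rfl | hu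
      · exact hmax i hi2
      · exact hU i hi2 u hu

lemma exists_heaviest' (V : Finset ι) (w : ι → ℝ) (hw : ∀ i, 0 ≤ w i) (k : ℕ) (hk : k < V.card) :
    ∃ U ⊆ V, U.card = k ∧ ∃ wm : ℝ, 0 ≤ wm ∧ (∀ i ∈ V \ U, w i ≤ wm) ∧ ∀ u ∈ U, wm ≤ w u := by
  obtain ⟨U, hUV, hUk, hU⟩ := exists_heaviest V w k hk.le
  have hne : (V \ U).Nonempty := by
    rw [← Finset.card_pos, Finset.card_sdiff_of_subset hUV]
    omega
  obtain ⟨m, hm, hmax⟩ := Finset.exists_max_image (V \ U) w hne
  exact ⟨U, hUV, hUk, w m, hw m, hmax, fun u hu => hU m hm u hu⟩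

/-- convexity of the potential. -/
lemma Phi_mid {l : ℕ} {a b : Fin d → ℝ} (ha : Phi α l a ≤ ZZ d) (hb : Phi α l b ≤ ZZ d) :
    Phi α l (fun j => (a j + b j) / 2) ≤ ZZ d := by
  have hexp : ∀ s t : ℝ, Real.exp ((s + t) / 2) ≤ (Real.exp s + Real.exp t) / 2 := by
    intro s t
    have h1 : Real.exp ((s + t) / 2) ^ 2 = Real.exp s * Real.exp t := by
      rw [← Real.exp_add, ← Real.exp_nat_mul]
      congr 1
      push_cast; ring
    have h2 := Real.exp_pos s
    have h3 := Real.exp_pos t
    have h4 : Real.exp ((s + t) / 2) ^ 2 ≤ ((Real.exp s + Real.exp t) / 2) ^ 2 := by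
      rw [h1]
      nlinarith [sq_nonneg (Real.exp s - Real.exp t)]
    exact le_of_pow_le_pow_left₀ (by norm_num) (by positivity) h4
  have h1 : Phi α l (fun j => (a j + b j) / 2) ≤ (Phi α l a + Phi α l b) / 2 := by
    unfold Phi
    rw [← Finset.sum_add_distrib, Finset.sum_div]
    apply Finset.sum_le_sum
    intro j _
    split_ifs
    · have e1 := hexp (a j / 4) (b j / 4)
      have e2 := hexp (-(a j) / 4) (-(b j) / 4)
      have e3 : (a j + b j) / 2 / 4 = (a j / 4 + b j / 4) / 2 := by ring
      have e4 : -((a j + b j) / 2) / 4 = (-(a j) / 4 + -(b j) / 4) / 2 := by ring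
      rw [e3, e4]
      have e5 : (0 : ℝ) ≤ (1 / 64) ^ (l - tt α j) := by positivity
      have e6 := mul_le_mul_of_nonneg_left (add_le_add e1 e2) e5
      refine e6.trans (le_of_eq ?_)
      ring
    · simp
  linarith

variable {α v}

lemma v_abs_le' (hv : ∀ i, ∑ j, (v i j) ^ 2 ≤ 1) (i : ι) (j : Fin d) : |v i j| ≤ 1 := by
  have h1 : (v i j) ^ 2 ≤ ∑ j, (v i j) ^ 2 :=
    Finset.single_le_sum (f := fun j => (v i j) ^ 2) (fun j _ => sq_nonneg _) (Finset.mem_univ j)
  have h2 := h1.trans (hv i)
  rw [← sq_abs] at h2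
  have h3 := abs_nonneg (v i j)
  nlinarith

/-- child covariance estimate, numerical part. -/
lemma child_num (hd : 1 ≤ d) {A AU E D a s : ℝ} (hs : 0 ≤ s)
    (h1 : |A - D| ≤ 2 * Lf d + 10 * Lf d * d * (Real.sqrt 2 * s)) (h2 : |AU| ≤ 13)
    (h3 : |E| ≤ 4 * Lf d * d * (Real.sqrt 2 * s) + 2 * (Lf d - 7)) (ha : a = D / 2) :
    |(A - AU + E) / 2 - a| ≤ 2 * Lf d + 10 * Lf d * d * s := by
  have hL := Lf_ge d hd
  have hd' : (1 : ℝ) ≤ d := by exact_mod_cast hd
  have h4 : Real.sqrt 2 ≤ 10 / 7 := by
    rw [Real.sqrt_le_left (by norm_num)]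
    norm_num
  have h5 : Lf d * d * (Real.sqrt 2 * s) ≤ Lf d * d * (10 / 7 * s) := by
    apply mul_le_mul_of_nonneg_left _ (by positivity)
    exact mul_le_mul_of_nonneg_right h4 hs
  rw [ha]
  rw [abs_le] at *
  constructor <;> nlinarith [h1.1, h1.2, h2.1, h2.2, h3.1, h3.2]

/-- a child of a node. -/
lemma child_inv (hd : 1 ≤ d) (hv : ∀ i, ∑ j, (v i j) ^ 2 ≤ 1) {l : ℕ} {a b a' b' : Fin d → ℝ} {V R U V' : Finset ι}
    (hInv : Inv α v l a b V) (hRU : V = R ∪ U) (hdis : Disjoint R U) (hUc : U.card = 13) {η : ι → ℝ}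
    (hV' : V' ⊆ R) (hsumV' : ∀ f : ι → ℝ, ∑ i ∈ V', f i = (∑ i ∈ R, f i + ∑ i ∈ R, η i * f i) / 2)
    (hE : ∀ j, l < tt α j → ∀ m, |∑ i ∈ R, η i * (v i j * v i m)| ≤
      4 * Lf d * d * Real.sqrt (α j / 2 ^ l / KK d) + 2 * (Lf d - 7))
    (hW : |∑ i ∈ R, η i * wt α v l i| ≤ ∑ i ∈ U, wt α v l i + (1 / 10) * ∑ i ∈ R, wt α v l i)
    (hs : ∀ j, b' j = a' j + ∑ i ∈ V', v i j) (ha' : Good α (l + 1) a') (hb' : Good α (l + 1) b') :
    Inv α v (l + 1) a' b' V' := by
  have hL := Lf_ge d hd
  have hd' : (1 : ℝ) ≤ d := by exact_mod_cast hd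
  have hK := KK_pos d hd
  have hsum : ∀ f : ι → ℝ, ∑ i ∈ V, f i = ∑ i ∈ R, f i + ∑ i ∈ U, f i := by
    intro f; rw [hRU, Finset.sum_union hdis]
  refine ⟨hs, ?_, ?_, ha', hb'⟩
  · intro j hj k
    have h1 := hInv.A j (by omega) k
    have h2 := hE j (by omega) k
    have h3 : |∑ i ∈ U, v i j * v i k| ≤ 13 := by
      calc |∑ i ∈ U, v i j * v i k| ≤ ∑ i ∈ U, |v i j * v i k| := Finset.abs_sum_le_sum_abs _ _
        _ ≤ ∑ _i ∈ U, (1 : ℝ) := by
            apply Finset.sum_le_sum; intro i _
            rw [abs_mul]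
            nlinarith [v_abs_le' hv i j, v_abs_le' hv i k, abs_nonneg (v i j), abs_nonneg (v i k)]
        _ = 13 := by simp [hUc]
    have h4 : Real.sqrt (α j / 2 ^ l / KK d) = Real.sqrt 2 * Real.sqrt (α j / 2 ^ (l + 1) / KK d) := by
      rw [← Real.sqrt_mul (by norm_num)]
      congr 1
      rw [pow_succ]
      field_simp
    rw [h4] at h1 h2
    have h5 : (if j = k then α j / 2 ^ (l + 1) else 0) = (if j = k then α j / 2 ^ l else 0) / 2 := by
      split_ifs
      · rw [pow_succ]; field_simp
      · simp
    rw [hsumV' (fun i => v i j * v i k)]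
    have h6 : ∑ i ∈ R, v i j * v i k = ∑ i ∈ V, v i j * v i k - ∑ i ∈ U, v i j * v i k := by
      rw [hsum]; ring
    rw [h6]
    exact child_num hd (Real.sqrt_nonneg _) h1 h3 h2 h5
  · -- weights
    have hwV' : ∑ i ∈ V', wt α v l i ≤ (11 / 20) * Wm d := by
      rw [hsumV' (fun i => wt α v l i)]
      have h1 := hInv.W
      rw [hsum] at h1
      have h2 := (abs_le.mp hW).2
      have h3 : 0 ≤ ∑ i ∈ U, wt α v l i := Finset.sum_nonneg (fun i _ => wt_nonneg α v hd l i)
      linarith
    have hstep : ∀ i, wt α v (l + 1) i ≤ (25 / 16) * wt α v l i +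
        ∑ j, (if tt α j = l + 1 then (v i j) ^ 2 / KK d else 0) := by
      intro i
      unfold wt
      rw [Finset.mul_sum, ← Finset.sum_add_distrib]
      apply Finset.sum_le_sum
      intro j _
      by_cases h1 : tt α j ≤ l
      · rw [if_pos (by omega), if_pos h1, if_neg (by omega), add_zero]
        unfold rho
        have h2 : l + 1 - tt α j = (l - tt α j) + 1 := by omega
        rw [h2, pow_succ]
        apply le_of_eq
        have h3 : (0 : ℝ) < (16 / 25) ^ (l - tt α j) := by positivity
        rw [mul_div_assoc', div_eq_div_iff (by positivity) (by positivity)]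
        ring
      · by_cases h2 : tt α j = l + 1
        · rw [if_pos (by omega), if_neg h1, if_pos h2]
          unfold rho
          rw [h2]
          simp
        · rw [if_neg (by omega), if_neg h1, if_neg h2]
          simp
    calc ∑ i ∈ V', wt α v (l + 1) i ≤ ∑ i ∈ V', ((25 / 16) * wt α v l i +
        ∑ j, (if tt α j = l + 1 then (v i j) ^ 2 / KK d else 0)) := Finset.sum_le_sum (fun i _ => hstep i)
      _ = (25 / 16) * ∑ i ∈ V', wt α v l i + ∑ j, ∑ i ∈ V', (if tt α j = l + 1 then (v i j) ^ 2 / KK d else 0) := by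
          rw [Finset.sum_add_distrib, ← Finset.mul_sum, Finset.sum_comm]
      _ ≤ (25 / 16) * ((11 / 20) * Wm d) + ∑ _j : Fin d, (4 : ℝ) := by
          apply add_le_add (mul_le_mul_of_nonneg_left hwV' (by norm_num))
          apply Finset.sum_le_sum
          intro j _
          by_cases h2 : tt α j = l + 1
          · simp only [h2, if_true]
            rw [← Finset.sum_div, div_le_iff₀ hK]
            -- energy of a newly slow coordinate
            have h3 : l < tt α j := by omega
            have h4 := hInv.A j h3 j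
            simp only [if_true] at h4
            have h5 := lt_tt α h3
            have h6 := tt_spec α hd j
            rw [h2, pow_succ] at h6
            have h7 : α j / 2 ^ l < 2 * KK d := by
              have : α j / (2 ^ l * 2) = α j / 2 ^ l / 2 := by field_simp
              rw [this] at h6
              linarith
            have h8 : 1 ≤ α j / 2 ^ l / KK d := by
              rw [le_div_iff₀ hK]; linarith
            have h9 := SplitData.sqrt_le_of_one_le h8
            have h10 : 2 * Lf d + 10 * Lf d * d * Real.sqrt (α j / 2 ^ l / KK d) ≤ α j / 2 ^ l := by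
              have e1 : 2 * Lf d + 10 * Lf d * d * Real.sqrt (α j / 2 ^ l / KK d) ≤
                  (2 * Lf d + 10 * Lf d * d) * (α j / 2 ^ l / KK d) := by
                have : 10 * Lf d * d * Real.sqrt (α j / 2 ^ l / KK d) ≤ 10 * Lf d * d * (α j / 2 ^ l / KK d) := by
                  apply mul_le_mul_of_nonneg_left h9 (by positivity)
                nlinarith
              have e2 : (2 * Lf d + 10 * Lf d * d) ≤ KK d := by
                unfold KK
                have : 1 ≤ Lf d * d := by nlinarith
                nlinarith [mul_nonneg (by linarith : (0:ℝ) ≤ Lf d) (by linarith : (0:ℝ) ≤ (d:ℝ))]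
              refine e1.trans ?_
              calc (2 * Lf d + 10 * Lf d * d) * (α j / 2 ^ l / KK d) ≤ KK d * (α j / 2 ^ l / KK d) := by
                    apply mul_le_mul_of_nonneg_right e2 (by linarith)
                _ = α j / 2 ^ l := by field_simp
            have h11 : ∑ i ∈ V', (v i j) ^ 2 ≤ ∑ i ∈ V, (v i j) ^ 2 := by
              apply Finset.sum_le_sum_of_subset_of_nonneg
              · rw [hRU]; exact hV'.trans Finset.subset_union_left
              · intro i _ _; positivity
            have h12 : ∑ i ∈ V, (v i j) ^ 2 = ∑ i ∈ V, v i j * v i j := by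
              apply Finset.sum_congr rfl; intro i _; ring
            have h13 := (abs_le.mp (h4.trans h10)).2
            linarith
          · simp [h2]
      _ ≤ Wm d := by
          simp only [Finset.sum_const, Finset.card_univ, Fintype.card_fin, nsmul_eq_mul]
          unfold Wm
          nlinarith

/-- The ordering property of a list started at `a`. -/
def Ord (v : ι → Fin d → ℝ) (a : Fin d → ℝ) (L : List ι) : Prop :=
  ∀ m : ℕ, ∀ j, |a j + ((L.take m).map (fun i => v i j)).sum| ≤ Lam d

lemma Ord.append {a a' : Fin d → ℝ} {L L' : List ι} (h : Ord v a L) (h' : Ord v a' L')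
    (ha : ∀ j, a' j = a j + (L.map (fun i => v i j)).sum) : Ord v a (L ++ L') := by
  intro m j
  rw [List.take_append]
  rw [List.map_append, List.sum_append]
  by_cases hm : m ≤ L.length
  · have h1 : m - L.length = 0 := by omega
    rw [h1, List.take_zero, List.map_nil, List.sum_nil, add_zero]
    exact h m j
  · have h1 : L.take m = L := List.take_of_length_le (by omega)
    rw [h1, ← add_assoc, ← ha]
    exact h' (m - L.length) j

lemma sum_take_le (hv : ∀ i, ∑ j, (v i j) ^ 2 ≤ 1) (L : List ι) (m : ℕ) (j : Fin d) :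
    |((L.take m).map (fun i => v i j)).sum| ≤ L.length := by
  induction L generalizing m with
  | nil => simp
  | cons i L ih =>
    cases m with
    | zero =>
      rw [List.take_zero, List.map_nil, List.sum_nil, abs_zero]
      positivity
    | succ m =>
      rw [List.take_succ_cons, List.map_cons, List.sum_cons]
      calc _ ≤ |v i j| + |((L.take m).map (fun i => v i j)).sum| := abs_add_le _ _
        _ ≤ 1 + L.length := add_le_add (v_abs_le' hv i j) (ih m)
        _ = _ := by push_cast [List.length_cons]; ring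

lemma Ord.leaf (hd : 1 ≤ d) (hv : ∀ i, ∑ j, (v i j) ^ 2 ≤ 1) {l : ℕ} {a : Fin d → ℝ} (ha : Good α l a) {L : List ι}
    (hL : L.length ≤ 13) : Ord v a L := by
  intro m j
  have h1 := ha.bound α hd j
  have h2 := sum_take_le hv L m j
  have h3 : (L.length : ℝ) ≤ 13 := by exact_mod_cast hL
  unfold Lam
  calc _ ≤ |a j| + |((L.take m).map (fun i => v i j)).sum| := abs_add_le _ _
    _ ≤ _ := by linarith

lemma sum_toList (V : Finset ι) (f : ι → ℝ) : (V.toList.map f).sum = ∑ i ∈ V, f i := by
  rw [Finset.sum_map_toList]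

lemma sum_list_eq {L : List ι} {V : Finset ι} (hnd : L.Nodup) (hL : ∀ i, i ∈ L ↔ i ∈ V) (f : ι → ℝ) :
    (L.map f).sum = ∑ i ∈ V, f i := by
  have h1 : V = L.toFinset := by
    ext i; rw [List.mem_toFinset, hL]
  rw [h1, List.sum_toFinset f hnd]

variable [Fintype ι]

/-- The main recursion. -/
theorem recursion (hR : RoundingStatement) (hd : 1 ≤ d) (hv : ∀ i, ∑ j, (v i j) ^ 2 ≤ 1) :
    ∀ n : ℕ, ∀ V : Finset ι, V.card ≤ n → ∀ (l : ℕ) (a b : Fin d → ℝ), Inv α v l a b V →
      ∃ L : List ι, L.Nodup ∧ (∀ i, i ∈ L ↔ i ∈ V) ∧ Ord v a L := by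
  intro n
  induction n with
  | zero =>
    intro V hV l a b hInv
    refine ⟨[], by simp, ?_, Ord.leaf hd hv hInv.ga (by simp)⟩
    have : V = ∅ := Finset.card_eq_zero.mp (by omega)
    simp [this]
  | succ n ih =>
    intro V hV l a b hInv
    by_cases hc : V.card ≤ 13
    · exact ⟨V.toList, V.nodup_toList, fun i => Finset.mem_toList, Ord.leaf hd hv hInv.ga (by simpa using hc)⟩
    push Not at hc
    have hL := Lf_ge d hd
    have hZ := ZZ_pos d hd
    obtain ⟨U, hUV, hU13, wm, hwm, hwR, hwU⟩ :=
      exists_heaviest' V (fun i => wt α v l i) (fun i => wt_nonneg α v hd l i) 13 hc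
    set R := V \ U with hRdef
    have hdis : Disjoint R U := Finset.sdiff_disjoint
    have hRU : V = R ∪ U := (Finset.sdiff_union_of_subset hUV).symm
    let S : SplitData d ι :=
      { hd := hd
        v := v
        hv := hv
        R := R
        U := U
        hRU := hdis
        hU := hU13
        fast := fun j => l < tt α j
        win := fun j => tt α j ≤ l ∧ l < tt α j + nw d
        gran := fun j => tt α j + nw d ≤ l
        a := fun j => α j / 2 ^ l
        ha := fun j hj => lt_tt α hj
        hA := by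
          intro j hj k
          rw [← hRU]
          exact hInv.A j hj k
        h := fun j => (a j + b j) / 2
        hh := by
          intro j hj
          have h1 := hInv.ga.fast j hj
          have h2 := hInv.gb.fast j hj
          rw [abs_le] at *
          constructor <;> linarith [h1.1, h1.2, h2.1, h2.2]
        τ := fun j => tau α l j
        hτ := fun j _ => (tau_pos α hd l j).le
        hslow := by
          intro j hj
          rw [← hRU]
          exact hInv.slow α v hd (by omega)
        hgran := by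
          intro j hj
          refine ⟨by omega, tau_pos α hd l j, (tau_gran α hd hj).trans ?_⟩
          exact pow_le_one₀ (by norm_num) (by norm_num)
        hgran2 := by
          intro i hi
          have h := hInv.gran α v hd (show i ∈ V by rw [hRU]; exact Finset.mem_union_left _ hi)
          convert h
        hwin := by
          intro j hj
          constructor
          · omega
          · omega
        u := fun j => (1 / 64) ^ (l - tt α j)
        hu := fun j => by positivity
        hpot := by
          have h := Phi_mid α hInv.ga.win hInv.gb.win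
          unfold Phi at h
          convert h
        w := fun i => wt α v l i
        hw := fun i => wt_nonneg α v hd l i
        wm := wm
        hwm := hwm
        hwR := hwR
        hwU := hwU }
    obtain ⟨ε, hε, hfast, hwin, hgran, hE, hW⟩ := S.split hR
    -- children
    set V0 := R.filter (fun i => ε i = 1) with hV0
    set V1 := R.filter (fun i => ¬ ε i = 1) with hV1
    have hsum0 : ∀ f : ι → ℝ, ∑ i ∈ V0, f i = (∑ i ∈ R, f i + ∑ i ∈ R, ε i * f i) / 2 := by
      intro f
      rw [hV0, Finset.sum_filter, ← Finset.sum_add_distrib, Finset.sum_div]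
      apply Finset.sum_congr rfl
      intro i hi
      rcases hε i hi with h | h
      · rw [if_pos h, h]; ring
      · rw [if_neg (by rw [h]; norm_num), h]; ring
    have hsum1 : ∀ f : ι → ℝ, ∑ i ∈ V1, f i = (∑ i ∈ R, f i + ∑ i ∈ R, (-ε i) * f i) / 2 := by
      intro f
      rw [hV1, Finset.sum_filter, ← Finset.sum_add_distrib, Finset.sum_div]
      apply Finset.sum_congr rfl
      intro i hi
      rcases hε i hi with h | h
      · rw [if_neg (by rw [h]; norm_num), h]; ring
      · rw [if_pos (by rw [h]; norm_num), h]; ring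
    set e : Fin d → ℝ := fun j => (a j + b j) / 2 + (∑ i ∈ R, ε i * v i j) / 2 with he
    set m0 : Fin d → ℝ := fun j => e j + (-(∑ i ∈ U, v i j) / 2) with hm0
    set m1 : Fin d → ℝ := fun j => e j + ((∑ i ∈ U, v i j) / 2) with hm1
    have hUabs : ∀ j, |∑ i ∈ U, v i j| ≤ 13 := by
      intro j
      calc |∑ i ∈ U, v i j| ≤ ∑ i ∈ U, |v i j| := Finset.abs_sum_le_sum_abs _ _
        _ ≤ ∑ _i ∈ U, (1 : ℝ) := Finset.sum_le_sum (fun i _ => v_abs_le' hv i j)
        _ = 13 := by simp [hU13]
    have hUgran : ∀ j, tt α j + nw d ≤ l → |∑ i ∈ U, v i j| ≤ 13 * tau α l j := by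
      intro j hj
      have h1 := hInv.slow α v hd (show tt α j ≤ l by omega)
      have h2 := tau_pos α hd l j
      calc |∑ i ∈ U, v i j| ≤ ∑ i ∈ U, |v i j| := Finset.abs_sum_le_sum_abs _ _
        _ ≤ ∑ _i ∈ U, tau α l j := by
            apply Finset.sum_le_sum
            intro i hi
            have h3 : (v i j) ^ 2 ≤ (tau α l j) ^ 2 :=
              (Finset.single_le_sum (f := fun i => (v i j) ^ 2) (fun i _ => sq_nonneg _) (hUV hi)).trans h1
            exact abs_le_of_sq_le_sq h3 h2.le
        _ = 13 * tau α l j := by simp [hU13]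
    have hgood : ∀ δ : Fin d → ℝ, (∀ j, |δ j| = |∑ i ∈ U, v i j| / 2) → Good α (l + 1) (fun j => e j + δ j) := by
      intro δ hδ
      apply Good.mid α hd (h := fun j => (a j + b j) / 2) (e := e)
      · intro j hj; exact hfast j hj
      · convert hwin
      · intro j hj
        have h1 := hgran j hj
        have h2 : e j - (a j + b j) / 2 = (∑ i ∈ R, ε i * v i j) / 2 := by
          rw [he]; ring
        rw [h2]
        exact h1
      · intro j hj
        have h1 := hInv.ga.gran j hj
        have h2 := hInv.gb.gran j hj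
        rw [abs_le] at *
        constructor <;> linarith [h1.1, h1.2, h2.1, h2.2]
      · intro j
        rw [hδ]
        linarith [hUabs j]
      · intro j hj
        rw [hδ]
        linarith [hUgran j hj]
    have hg0 : Good α (l + 1) m0 := by
      apply hgood
      intro j
      rw [abs_div, abs_neg, abs_of_pos (by norm_num : (0:ℝ) < 2)]
    have hg1 : Good α (l + 1) m1 := by
      apply hgood
      intro j
      rw [abs_div, abs_of_pos (by norm_num : (0:ℝ) < 2)]
    have hsumV : ∀ f : ι → ℝ, ∑ i ∈ V, f i = ∑ i ∈ R, f i + ∑ i ∈ U, f i := by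
      intro f
      conv_lhs => rw [hRU]
      rw [Finset.sum_union hdis]
    have hs0 : ∀ j, m0 j = a j + ∑ i ∈ V0, v i j := by
      intro j
      rw [hsum0 (fun i => v i j)]
      have h1 := hInv.sum j
      rw [hsumV] at h1
      simp only [hm0, he]
      rw [h1]; ring
    have hs1 : ∀ j, b j = m1 j + ∑ i ∈ V1, v i j := by
      intro j
      rw [hsum1 (fun i => v i j)]
      have h1 := hInv.sum j
      rw [hsumV] at h1
      simp only [hm1, he]
      have h2 : ∑ i ∈ R, -ε i * v i j = -∑ i ∈ R, ε i * v i j := by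
        rw [← Finset.sum_neg_distrib]
        apply Finset.sum_congr rfl; intro i _; ring
      rw [h2]
      linarith
    have hI0 : Inv α v (l + 1) a m0 V0 :=
      child_inv hd hv hInv hRU hdis hU13 (Finset.filter_subset _ _) hsum0 hE hW hs0 (hInv.ga.persist α hd) hg0
    have hI1 : Inv α v (l + 1) m1 b V1 := by
      refine child_inv hd hv hInv hRU hdis hU13 (Finset.filter_subset _ _) hsum1 ?_ ?_ hs1 hg1 (hInv.gb.persist α hd)
      · intro j hj m
        have h1 := hE j hj m
        have h2 : ∑ i ∈ R, -ε i * (v i j * v i m) = -∑ i ∈ R, ε i * (v i j * v i m) := by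
          rw [← Finset.sum_neg_distrib]
          apply Finset.sum_congr rfl; intro i _; ring
        rw [h2, abs_neg]
        exact h1
      · have h2 : ∑ i ∈ R, -ε i * wt α v l i = -∑ i ∈ R, ε i * wt α v l i := by
          rw [← Finset.sum_neg_distrib]
          apply Finset.sum_congr rfl; intro i _; ring
        rw [h2, abs_neg]
        exact hW
    have hRcard : R.card ≤ n := by
      rw [hRdef, Finset.card_sdiff_of_subset hUV]
      omega
    have hc0 : V0.card ≤ n := (Finset.card_filter_le _ _).trans hRcard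
    have hc1 : V1.card ≤ n := (Finset.card_filter_le _ _).trans hRcard
    obtain ⟨L0, hnd0, hm0', hO0⟩ := ih V0 hc0 (l + 1) a m0 hI0
    obtain ⟨L1, hnd1, hm1', hO1⟩ := ih V1 hc1 (l + 1) m1 b hI1
    refine ⟨L0 ++ (U.toList ++ L1), ?_, ?_, ?_⟩
    · rw [List.nodup_append', List.nodup_append']
      refine ⟨hnd0, ⟨U.nodup_toList, hnd1, ?_⟩, ?_⟩
      · intro i hi hi1
        rw [Finset.mem_toList] at hi
        have h1 := Finset.mem_filter.mp ((hm1' i).mp hi1)
        exact (Finset.disjoint_left.mp hdis h1.1) hi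
      · intro i hi hi1
        have h0 := Finset.mem_filter.mp ((hm0' i).mp hi)
        rcases List.mem_append.mp hi1 with hi1 | hi1
        · rw [Finset.mem_toList] at hi1
          exact (Finset.disjoint_left.mp hdis h0.1) hi1
        · have h1 := Finset.mem_filter.mp ((hm1' i).mp hi1)
          exact h1.2 h0.2
    · intro i
      rw [List.mem_append, List.mem_append, Finset.mem_toList, hm0', hm1', hRU, Finset.mem_union]
      constructor
      · rintro (h | h | h)
        · exact Or.inl (Finset.mem_filter.mp h).1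
        · exact Or.inr h
        · exact Or.inl (Finset.mem_filter.mp h).1
      · rintro (h | h)
        · by_cases h1 : ε i = 1
          · exact Or.inl (Finset.mem_filter.mpr ⟨h, h1⟩)
          · exact Or.inr (Or.inr (Finset.mem_filter.mpr ⟨h, h1⟩))
        · exact Or.inr (Or.inl h)
    · refine hO0.append (a' := m0) ?_ ?_
      · refine (Ord.leaf hd hv hg0 (L := U.toList) (by simp [hU13])).append (a' := m1) hO1 ?_
        intro j
        rw [sum_toList]
        simp only [hm0, hm1]
        ring
      · intro j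
        rw [sum_list_eq hnd0 hm0', hs0]

end Node

/-- Package B: the coordinatewise theorem, from the rounding lemma. -/
theorem core_of_rounding (hR : RoundingStatement) : CoreStatement := by
  intro d hd ι _ _ v hv α hdiag hsum
  have hK := KK_pos d hd
  have hL := Lf_ge d hd
  have hZ := ZZ_pos d hd
  have hα : ∀ j, 0 ≤ α j := by
    intro j
    have h1 := hdiag j j
    simp only [if_true] at h1
    rw [← h1]
    exact Finset.sum_nonneg (fun i _ => mul_self_nonneg _)
  have hg : Good α 0 (fun _ : Fin d => (0 : ℝ)) := by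
    refine ⟨fun j _ => by rw [abs_zero]; linarith, ?_, ?_⟩
    · have h1 : Phi α 0 (fun _ : Fin d => (0 : ℝ)) ≤ ∑ _j : Fin d, 2 * Real.exp (Lf d / 4) := by
        unfold Phi
        apply Finset.sum_le_sum
        intro j _
        have h2 : (1 : ℝ) ≤ Real.exp (Lf d / 4) := Real.one_le_exp (by linarith)
        split_ifs
        · simp
          linarith
        · positivity
      rw [new_sum hd] at h1
      linarith
    · intro j hj
      rw [abs_zero]
      have h1 := Lf_le_Lw hd
      have h2 : (4 / 5 : ℝ) ^ (0 - tt α j - nw d) ≤ 1 := pow_le_one₀ (by norm_num) (by norm_num)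
      nlinarith
  have hInv : Inv α v 0 (fun _ => 0) (fun _ => 0) Finset.univ := by
    refine ⟨?_, ?_, ?_, hg, hg⟩
    · intro j
      rw [hsum j]; ring
    · intro j hj k
      rw [hdiag j k]
      simp only [pow_zero, div_one, sub_self, abs_zero]
      positivity
    · have h1 : ∑ i, wt α v 0 i ≤ ∑ _j : Fin d, (1 : ℝ) := by
        unfold wt
        rw [Finset.sum_comm]
        apply Finset.sum_le_sum
        intro j _
        by_cases h2 : tt α j ≤ 0
        · simp only [h2, if_true]
          rw [← Finset.sum_div]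
          have h3 : tt α j = 0 := by omega
          have h4 := tt_spec α hd j
          rw [h3, pow_zero, div_one] at h4
          unfold rho
          rw [h3]
          simp only [Nat.sub_self, pow_zero, mul_one]
          rw [div_le_one hK]
          have h5 := hdiag j j
          simp only [if_true] at h5
          have h6 : ∑ i, (v i j) ^ 2 = α j := by
            rw [← h5]
            apply Finset.sum_congr rfl; intro i _; ring
          linarith
        · simp [h2]
      refine h1.trans ?_
      simp only [Finset.sum_const, Finset.card_univ, Fintype.card_fin, nsmul_eq_mul, mul_one]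
      unfold Wm
      have : (1 : ℝ) ≤ d := by exact_mod_cast hd
      linarith
  obtain ⟨L, hnd, hmem, hO⟩ := recursion hR hd hv _ Finset.univ le_rfl 0 _ _ hInv
  refine ⟨L, hnd, fun i => (hmem i).mpr (Finset.mem_univ i), ?_⟩
  intro m j
  have h1 := hO m j
  rwa [zero_add] at h1

end Vale.Agent.P262
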