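import Mathlib
import Vale.Agent.P262.RoundingStatement

namespace Vale.Agent.P262

open scoped BigOperators

section Scalar

lemma scalar_engel (β ω κ t n : ℝ) (hκ : 0 ≤ κ) (ht : 0 ≤ t) (hn : 0 ≤ n) (hβ : κ = 0 → β = 0)
    (hω : ω ^ 2 ≤ t * n) : (β + ω) ^ 2 / (κ + t) ≤ β ^ 2 / κ + n := by
  rcases eq_or_lt_of_le hκ with h0 | hpos
  · have hb : β = 0 := hβ h0.symm
    rw [← h0, hb]
    rcases eq_or_lt_of_le ht with h1 | h1
    · rw [← h1]
      simpa using hn
    · have : (0 + ω) ^ 2 / (0 + t) = ω ^ 2 / t := by ring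
      rw [this, div_le_iff₀ h1]
      simp only [div_zero, zero_add]
      linarith
  · have hkt : 0 < κ + t := by linarith
    rw [div_le_iff₀ hkt]
    set q := β ^ 2 / κ with hq
    have hq1 : β ^ 2 = q * κ := by rw [hq]; field_simp
    have hq0 : 0 ≤ q := by rw [hq]; positivity
    have h2 : (2 * β * ω) ^ 2 ≤ (κ * n + t * q) ^ 2 := by
      have h3 : β ^ 2 * ω ^ 2 ≤ (q * κ) * (t * n) := by
        rw [hq1]
        exact mul_le_mul_of_nonneg_left hω (by positivity)
      nlinarith [sq_nonneg (κ * n - t * q)]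
    have h4 : 2 * β * ω ≤ κ * n + t * q := by
      have := abs_le_of_sq_le_sq' h2 (by positivity)
      exact this.2
    nlinarith

lemma concave_term (B θ : ℝ) (h : (|B| + θ) ^ 2 ≤ θ) (hθ : 0 ≤ θ) :
    ConcaveOn ℝ (Set.Icc (-1 : ℝ) 1) (fun s => Real.exp (B * s - θ * s ^ 2 / 2)) := by
  have hd : ∀ s : ℝ, HasDerivAt (fun s => Real.exp (B * s - θ * s ^ 2 / 2))
      (Real.exp (B * s - θ * s ^ 2 / 2) * (B - θ * s)) s := by
    intro s
    have h1 : HasDerivAt (fun s : ℝ => B * s - θ * s ^ 2 / 2) (B - θ * s) s := by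
      have := ((hasDerivAt_id s).const_mul B).sub ((((hasDerivAt_id s).pow 2).const_mul θ).div_const 2)
      refine this.congr_deriv ?_
      simp
      ring
    exact h1.exp
  have hderiv : deriv (fun s => Real.exp (B * s - θ * s ^ 2 / 2)) =
      fun s => Real.exp (B * s - θ * s ^ 2 / 2) * (B - θ * s) := by
    funext s
    exact (hd s).deriv
  have hd2 : ∀ s : ℝ, HasDerivAt (fun s => Real.exp (B * s - θ * s ^ 2 / 2) * (B - θ * s))
      (Real.exp (B * s - θ * s ^ 2 / 2) * ((B - θ * s) ^ 2 - θ)) s := by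
    intro s
    have h1 : HasDerivAt (fun s : ℝ => B - θ * s) (-θ) s := by
      have := ((hasDerivAt_const s B)).sub ((hasDerivAt_id s).const_mul θ)
      refine this.congr_deriv ?_
      simp
    refine ((hd s).mul h1).congr_deriv ?_
    ring
  apply concaveOn_of_deriv2_nonpos' (convex_Icc _ _)
  · intro s _
    exact (hd s).differentiableAt.differentiableWithinAt
  · intro s _
    rw [hderiv]
    exact (hd2 s).differentiableAt.differentiableWithinAt
  · intro s hs
    have : deriv^[2] (fun s => Real.exp (B * s - θ * s ^ 2 / 2)) s =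
        Real.exp (B * s - θ * s ^ 2 / 2) * ((B - θ * s) ^ 2 - θ) := by
      simp only [Function.iterate_succ, Function.iterate_zero, Function.comp_apply, id]
      rw [hderiv]
      exact (hd2 s).deriv
    rw [this]
    apply mul_nonpos_of_nonneg_of_nonpos (Real.exp_pos _).le
    have h1 : |B - θ * s| ≤ |B| + θ := by
      refine (abs_sub _ _).trans ?_
      have : |θ * s| ≤ θ := by
        rw [abs_mul, abs_of_nonneg hθ]
        have hs1 : |s| ≤ 1 := abs_le.mpr hs
        nlinarith
      linarith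
    have h2 : (B - θ * s) ^ 2 ≤ (|B| + θ) ^ 2 := by
      rw [← sq_abs (B - θ * s)]
      exact pow_le_pow_left₀ (abs_nonneg _) h1 2
    linarith

lemma theta_bound (β κ : ℝ) (hκ0 : 0 ≤ κ) (hκ1 : κ ≤ 1) (hβ : β ^ 2 ≤ κ / 16) :
    (|β| + 4 * (β ^ 2 / κ)) ^ 2 ≤ 4 * (β ^ 2 / κ) := by
  rcases eq_or_lt_of_le hκ0 with h0 | hpos
  · have : β = 0 := by
      have : β ^ 2 ≤ 0 := by rw [← h0] at hβ; simpa using hβ
      exact pow_eq_zero_iff (two_ne_zero) |>.mp (le_antisymm this (sq_nonneg _))
    simp [this]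
  · set q := β ^ 2 / κ with hq
    have hq1 : β ^ 2 = q * κ := by rw [hq]; field_simp
    have hq0 : 0 ≤ q := by rw [hq]; positivity
    have hq2 : q ≤ 1 / 16 := by
      rw [hq, div_le_iff₀ hpos]
      linarith
    have hb : |β| ^ 2 = q * κ := by rw [sq_abs]; exact hq1
    have hb1 : |β| ≤ 1 / 4 := by
      have : |β| ^ 2 ≤ (1 / 4) ^ 2 := by
        rw [hb]
        nlinarith
      exact le_of_pow_le_pow_left₀ (two_ne_zero) (by norm_num) this
    have hb0 := abs_nonneg β
    have : (|β| + 4 * q) ^ 2 = |β| ^ 2 + 8 * (|β| * q) + 16 * (q * q) := by ring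
    rw [this, hb]
    have e1 : q * κ ≤ q * 1 := mul_le_mul_of_nonneg_left hκ1 hq0
    have e2 : |β| * q ≤ (1 / 4) * q := mul_le_mul_of_nonneg_right hb1 hq0
    have e3 : q * q ≤ (1 / 16) * q := mul_le_mul_of_nonneg_right hq2 hq0
    linarith

end Scalar

section Proj

variable {E : Type} [NormedAddCommGroup E] [InnerProductSpace ℝ E] [FiniteDimensional ℝ E]

/-- The potential of the walk. -/
noncomputable def Pot (S : Submodule ℝ E) (z : E) (τ : ℝ) (y : E) : ℝ :=
  ‖S.starProjection y‖ ^ 2 + τ * (inner ℝ (z - S.starProjection z) y ^ 2 / (1 - ‖S.starProjection z‖ ^ 2))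

lemma pyth (S : Submodule ℝ E) (z : E) :
    ‖z‖ ^ 2 = ‖S.starProjection z‖ ^ 2 + ‖z - S.starProjection z‖ ^ 2 := by
  have h1 : inner ℝ (z - S.starProjection z) (S.starProjection z) = (0 : ℝ) :=
    Submodule.starProjection_inner_eq_zero z _ (Submodule.starProjection_apply_mem S z)
  have h2 : z = (z - S.starProjection z) + S.starProjection z := by abel
  have h3 : ‖(z - S.starProjection z) + S.starProjection z‖ ^ 2 =
      ‖z - S.starProjection z‖ ^ 2 + 2 * inner ℝ (z - S.starProjection z) (S.starProjection z) +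
      ‖S.starProjection z‖ ^ 2 := norm_add_sq_real _ _
  rw [← h2, h1] at h3
  linarith

lemma kappa_ge (S : Submodule ℝ E) (z : E) (hz : ‖z‖ ≤ 1) :
    ‖z - S.starProjection z‖ ^ 2 ≤ 1 - ‖S.starProjection z‖ ^ 2 := by
  have := pyth S z
  have h1 : ‖z‖ ^ 2 ≤ 1 := by
    have := norm_nonneg z
    nlinarith
  linarith

lemma beta_sq (S : Submodule ℝ E) (z y : E) (hz : ‖z‖ ≤ 1) :
    (inner ℝ (z - S.starProjection z) y) ^ 2 ≤ (1 - ‖S.starProjection z‖ ^ 2) * ‖y‖ ^ 2 := by
  have h1 : |inner ℝ (z - S.starProjection z) y| ≤ ‖z - S.starProjection z‖ * ‖y‖ :=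
    abs_real_inner_le_norm _ _
  have h2 : (inner ℝ (z - S.starProjection z) y) ^ 2 ≤ (‖z - S.starProjection z‖ * ‖y‖) ^ 2 := by
    rw [← sq_abs]
    exact pow_le_pow_left₀ (abs_nonneg _) h1 2
  rw [mul_pow] at h2
  exact h2.trans (mul_le_mul_of_nonneg_right (kappa_ge S z hz) (by positivity))

lemma pot_nonneg_snd (S : Submodule ℝ E) (z : E) (τ : ℝ) (y : E) (hz : ‖z‖ ≤ 1) (hτ : 0 ≤ τ) :
    0 ≤ τ * (inner ℝ (z - S.starProjection z) y ^ 2 / (1 - ‖S.starProjection z‖ ^ 2)) := by
  have h := kappa_ge S z hz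
  have h1 : 0 ≤ 1 - ‖S.starProjection z‖ ^ 2 := le_trans (by positivity) h
  positivity

lemma pot_ge (S : Submodule ℝ E) (z : E) (τ : ℝ) (y : E) (hz : ‖z‖ ≤ 1) (hτ : 0 ≤ τ) :
    ‖S.starProjection y‖ ^ 2 ≤ Pot S z τ y := by
  have := pot_nonneg_snd S z τ y hz hτ
  unfold Pot
  linarith

lemma pot_nonneg (S : Submodule ℝ E) (z : E) (τ : ℝ) (y : E) (hz : ‖z‖ ≤ 1) (hτ : 0 ≤ τ) :
    0 ≤ Pot S z τ y := le_trans (by positivity) (pot_ge S z τ y hz hτ)

lemma proj_proj (S' S : Submodule ℝ E) (h : S' ≤ S) (z : E) :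
    S'.starProjection (S.starProjection z) = S'.starProjection z := by
  have := Submodule.starProjection_comp_starProjection_of_le (𝕜 := ℝ) h
  have h2 := congrArg (fun f : E →L[ℝ] E => f z) this
  simpa using h2

lemma pot_mono (S' S : Submodule ℝ E) (h : S' ≤ S) (z : E) (τ : ℝ) (y : E) (hz : ‖z‖ ≤ 1) (hτ0 : 0 ≤ τ)
    (hτ1 : τ ≤ 1) : Pot S' z τ y ≤ Pot S z τ y := by
  set P := S.starProjection z with hP
  set P' := S'.starProjection z with hP'
  set w := P - P' with hw
  have e1 : S'.starProjection P = P' := proj_proj S' S h z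
  have e2 : ‖P‖ ^ 2 = ‖P'‖ ^ 2 + ‖w‖ ^ 2 := by
    have := pyth S' P
    rw [e1] at this
    exact this
  have e3 : ‖S.starProjection y‖ ^ 2 = ‖S'.starProjection y‖ ^ 2 +
      ‖S.starProjection y - S'.starProjection y‖ ^ 2 := by
    have := pyth S' (S.starProjection y)
    rw [proj_proj S' S h y] at this
    exact this
  have hwS : w ∈ S := S.sub_mem (Submodule.starProjection_apply_mem S z)
    (h (Submodule.starProjection_apply_mem S' z))
  have e4 : inner ℝ w y = inner ℝ w (S.starProjection y - S'.starProjection y) := by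
    have a1 : inner ℝ (y - S.starProjection y) w = (0 : ℝ) :=
      Submodule.starProjection_inner_eq_zero y w hwS
    have a2 : inner ℝ w (S'.starProjection y) = (0 : ℝ) := by
      have := Submodule.starProjection_inner_eq_zero (K := S') P (S'.starProjection y)
        (Submodule.starProjection_apply_mem S' y)
      rw [e1] at this
      exact this
    rw [real_inner_comm, inner_sub_right] at a1
    rw [inner_sub_right, a2]
    linarith
  have e5 : (inner ℝ w y) ^ 2 ≤ ‖w‖ ^ 2 * ‖S.starProjection y - S'.starProjection y‖ ^ 2 := by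
    rw [e4, ← mul_pow, ← sq_abs]
    exact pow_le_pow_left₀ (abs_nonneg _) (abs_real_inner_le_norm _ _) 2
  have e6 : inner ℝ (z - P') y = inner ℝ (z - P) y + inner ℝ w y := by
    rw [← inner_add_left]
    congr 1
    rw [hw]
    abel
  have hk := kappa_ge S z hz
  rw [← hP] at hk
  have hk0 : 0 ≤ 1 - ‖P‖ ^ 2 := le_trans (by positivity) hk
  have hb0 : 1 - ‖P‖ ^ 2 = 0 → inner ℝ (z - P) y = (0 : ℝ) := by
    intro h0
    rw [h0] at hk
    have : ‖z - P‖ = 0 := by
      have h1 : ‖z - P‖ ^ 2 = 0 := le_antisymm hk (by positivity)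
      exact pow_eq_zero_iff (two_ne_zero) |>.mp h1
    rw [norm_eq_zero.mp this]
    simp
  have key := scalar_engel (inner ℝ (z - P) y) (inner ℝ w y) (1 - ‖P‖ ^ 2) (‖w‖ ^ 2)
    (‖S.starProjection y - S'.starProjection y‖ ^ 2) hk0 (by positivity) (by positivity) hb0 e5
  have e7 : 1 - ‖P'‖ ^ 2 = 1 - ‖P‖ ^ 2 + ‖w‖ ^ 2 := by linarith
  unfold Pot
  rw [← hP, ← hP', e6, e7, e3]
  have h8 := mul_le_mul_of_nonneg_left key hτ0
  rw [mul_add] at h8
  have h9 : τ * ‖S.starProjection y - S'.starProjection y‖ ^ 2 ≤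
      ‖S.starProjection y - S'.starProjection y‖ ^ 2 := by
    have : 0 ≤ ‖S.starProjection y - S'.starProjection y‖ ^ 2 := by positivity
    nlinarith
  linarith

lemma pot_mem (S' S : Submodule ℝ E) (h : S' ≤ S) (z : E) (hzS : z ∈ S) (τ : ℝ) (y : E) (hz : ‖z‖ ≤ 1)
    (hτ0 : 0 ≤ τ) (hτ1 : τ ≤ 1) : Pot S' z τ y ≤ ‖S.starProjection y‖ ^ 2 := by
  refine (pot_mono S' S h z τ y hz hτ0 hτ1).trans ?_
  unfold Pot
  rw [Submodule.starProjection_eq_self_iff.mpr hzS]
  simp

lemma pot_le (S : Submodule ℝ E) (z : E) (τ : ℝ) (y : E) (hz : ‖z‖ ≤ 1)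
    (hτ0 : 0 ≤ τ) (hτ1 : τ ≤ 1) : Pot S z τ y ≤ ‖y‖ ^ 2 := by
  refine (pot_mem S ⊤ le_top z trivial τ y hz hτ0 hτ1).trans ?_
  rw [Submodule.starProjection_eq_self_iff.mpr (Submodule.mem_top (x := y))]

end Proj

section Boundary

variable {ι : Type}

lemma exists_boundary (F : Finset ι) (p : ι) (hp : p ∈ F) (x c : ι → ℝ) (hx : ∀ i ∈ F, |x i| < 1)
    (hc : |c p| = 1) :
    ∃ u : ℝ, 0 < u ∧ (∀ i ∈ F, |x i + u * c i| ≤ 1) ∧ ∃ i ∈ F, |x i + u * c i| = 1 := by
  have hF : F.Nonempty := ⟨p, hp⟩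
  set g : ℝ → ℝ := fun u => F.sup' hF (fun i => |x i + u * c i|) with hg
  have hcont : Continuous g := by
    rw [hg]
    exact Continuous.finset_sup'_apply hF (fun i _ => by fun_prop)
  have h0 : g 0 < 1 := by
    rw [hg]
    simp only [zero_mul, add_zero]
    rw [Finset.sup'_lt_iff]
    exact hx
  have h2 : 1 ≤ g 2 := by
    have h3 : |x p + 2 * c p| ≤ g 2 := Finset.le_sup' (fun i => |x i + 2 * c i|) hp
    have h4 : |2 * c p| = 2 := by rw [abs_mul, hc]; norm_num
    have h5 : |2 * c p| ≤ |x p + 2 * c p| + |x p| := by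
      have : 2 * c p = (x p + 2 * c p) - x p := by ring
      calc |2 * c p| = |(x p + 2 * c p) - x p| := by rw [← this]
        _ ≤ |x p + 2 * c p| + |x p| := abs_sub _ _
    have h6 := hx p hp
    linarith
  obtain ⟨u, hu, hgu⟩ := intermediate_value_Icc (by norm_num : (0 : ℝ) ≤ 2) hcont.continuousOn
    (show (1 : ℝ) ∈ Set.Icc (g 0) (g 2) from ⟨h0.le, h2⟩)
  have hu0 : u ≠ 0 := by
    intro h
    rw [h] at hgu
    linarith
  refine ⟨u, lt_of_le_of_ne hu.1 (Ne.symm hu0), ?_, ?_⟩
  · intro i hi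
    rw [← hgu]
    exact Finset.le_sup' (fun i => |x i + u * c i|) hi
  · obtain ⟨i, hi, h⟩ := Finset.exists_mem_eq_sup' hF (fun i => |x i + u * c i|)
    exact ⟨i, hi, by rw [← h]; exact hgu⟩

end Boundary

section Walk

variable {ι κ : Type} [DecidableEq ι] [Fintype κ] {E : Type} [NormedAddCommGroup E] [InnerProductSpace ℝ E]
  [FiniteDimensional ℝ E]

/-- The conclusion of the walk for the pivot `p`, the other indices `G`, the point `x`, the weights `W`. -/
def WalkGoal (z : ι → E) (y : κ → E) (G : Finset ι) (p : ι) (x : ι → ℝ) (W : κ → ℝ) : Prop :=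
  ∃ ε : ι → ℝ, (∀ i ∈ insert p G, ε i = 1 ∨ ε i = -1) ∧
    ∑ k, W k * Real.exp (inner ℝ (∑ i ∈ insert p G, (ε i - x i) • z i) (y k)) ≤
      ∑ k, W k * Real.exp (2 * Pot (Submodule.span ℝ (z '' (G : Set ι))) (z p) (1 - x p ^ 2) (y k))

lemma abs_eq_one_cases {a : ℝ} (h : |a| = 1) : a = 1 ∨ a = -1 := by
  rcases abs_cases a with h1 | h1
  · left; linarith
  · right; linarith

lemma tau_mem {a : ℝ} (h : |a| ≤ 1) : 0 ≤ 1 - a ^ 2 ∧ 1 - a ^ 2 ≤ 1 := by
  have h1 : a ^ 2 ≤ 1 := by
    rw [← sq_abs]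
    have := abs_nonneg a
    nlinarith
  constructor
  · linarith
  · nlinarith [sq_nonneg a]

/-- Boundary cases of the walk. -/
lemma walk_boundary (z : ι → E) (y : κ → E) (G : Finset ι) (p : ι) (hp : p ∉ G)
    (hz : ∀ i ∈ insert p G, ‖z i‖ ≤ 1)
    (IH : ∀ (G' : Finset ι) (p' : ι), G'.card < G.card → p' ∉ G' → (∀ i ∈ insert p' G', ‖z i‖ ≤ 1) →
      ∀ (x : ι → ℝ), (∀ i ∈ insert p' G', |x i| ≤ 1) → ∀ W : κ → ℝ, (∀ k, 0 ≤ W k) → WalkGoal z y G' p' x W)
    (x : ι → ℝ) (hx : ∀ i ∈ insert p G, |x i| ≤ 1) (hb : ∃ i ∈ insert p G, |x i| = 1)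
    (W : κ → ℝ) (hW : ∀ k, 0 ≤ W k) : WalkGoal z y G p x W := by
  have hzp : ‖z p‖ ≤ 1 := hz p (Finset.mem_insert_self _ _)
  have hτ := tau_mem (hx p (Finset.mem_insert_self _ _))
  by_cases hi : ∃ i ∈ G, |x i| = 1
  · obtain ⟨i0, hi0, hxi⟩ := hi
    have hp0 : p ≠ i0 := fun h => hp (h ▸ hi0)
    have hpG' : p ∉ G.erase i0 := fun h => hp (Finset.mem_of_mem_erase h)
    have hsub : insert p (G.erase i0) ⊆ insert p G :=
      Finset.insert_subset_insert _ (Finset.erase_subset _ _)
    obtain ⟨ε, hε, hsum⟩ := IH (G.erase i0) p (Finset.card_erase_lt_of_mem hi0) hpG'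
      (fun i h => hz i (hsub h)) x (fun i h => hx i (hsub h)) W hW
    have hins : insert p G = insert i0 (insert p (G.erase i0)) := by
      rw [Finset.insert_comm, Finset.insert_erase hi0]
    have hnot : i0 ∉ insert p (G.erase i0) := by
      simp [Ne.symm hp0]
    refine ⟨Function.update ε i0 (x i0), ?_, ?_⟩
    · intro i hi
      by_cases h : i = i0
      · rw [h, Function.update_self]
        exact abs_eq_one_cases hxi
      · rw [Function.update_of_ne h]
        apply hε
        rw [hins, Finset.mem_insert] at hi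
        exact hi.resolve_left h
    · have e1 : ∑ i ∈ insert p G, (Function.update ε i0 (x i0) i - x i) • z i =
          ∑ i ∈ insert p (G.erase i0), (ε i - x i) • z i := by
        rw [hins, Finset.sum_insert hnot, Function.update_self, sub_self, zero_smul, zero_add]
        apply Finset.sum_congr rfl
        intro i hi
        have : i ≠ i0 := fun h => hnot (h ▸ hi)
        rw [Function.update_of_ne this]
      rw [e1]
      refine hsum.trans ?_
      apply Finset.sum_le_sum
      intro k _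
      apply mul_le_mul_of_nonneg_left _ (hW k)
      apply Real.exp_le_exp.mpr
      have := pot_mono (Submodule.span ℝ (z '' ((G.erase i0 : Finset ι) : Set ι)))
        (Submodule.span ℝ (z '' (G : Set ι)))
        (Submodule.span_mono (Set.image_mono (by exact_mod_cast Finset.erase_subset _ _))) (z p)
        (1 - x p ^ 2) (y k) hzp hτ.1 hτ.2
      linarith
  · have hxp : |x p| = 1 := by
      obtain ⟨i, hi1, hi2⟩ := hb
      rw [Finset.mem_insert] at hi1
      rcases hi1 with h | h
      · rw [← h]; exact hi2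
      · exact absurd ⟨i, h, hi2⟩ hi
    rcases G.eq_empty_or_nonempty with hG | ⟨p', hp'⟩
    · subst hG
      refine ⟨x, ?_, ?_⟩
      · intro i hi
        simp only [insert_empty_eq, Finset.mem_singleton] at hi
        rw [hi]
        exact abs_eq_one_cases hxp
      · apply Finset.sum_le_sum
        intro k _
        apply mul_le_mul_of_nonneg_left _ (hW k)
        apply Real.exp_le_exp.mpr
        have := pot_nonneg (Submodule.span ℝ (z '' ((∅ : Finset ι) : Set ι))) (z p) (1 - x p ^ 2) (y k) hzp hτ.1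
        simp only [sub_self, zero_smul, Finset.sum_const_zero, inner_zero_left]
        linarith
    · have hins : insert p' (G.erase p') = G := Finset.insert_erase hp'
      have hsub : insert p' (G.erase p') ⊆ insert p G := by
        rw [hins]; exact Finset.subset_insert _ _
      obtain ⟨ε, hε, hsum⟩ := IH (G.erase p') p' (Finset.card_erase_lt_of_mem hp') (Finset.notMem_erase _ _)
        (fun i h => hz i (hsub h)) x (fun i h => hx i (hsub h)) W hW
      rw [hins] at hε hsum
      refine ⟨Function.update ε p (x p), ?_, ?_⟩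
      · intro i hi
        by_cases h : i = p
        · rw [h, Function.update_self]
          exact abs_eq_one_cases hxp
        · rw [Function.update_of_ne h]
          exact hε i ((Finset.mem_insert.mp hi).resolve_left h)
      · have e1 : ∑ i ∈ insert p G, (Function.update ε p (x p) i - x i) • z i =
            ∑ i ∈ G, (ε i - x i) • z i := by
          rw [Finset.sum_insert hp, Function.update_self, sub_self, zero_smul, zero_add]
          apply Finset.sum_congr rfl
          intro i hi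
          have : i ≠ p := fun h => hp (h ▸ hi)
          rw [Function.update_of_ne this]
        rw [e1]
        refine hsum.trans ?_
        apply Finset.sum_le_sum
        intro k _
        apply mul_le_mul_of_nonneg_left _ (hW k)
        apply Real.exp_le_exp.mpr
        have hτ' := tau_mem (hx p' (Finset.mem_insert_of_mem hp'))
        have h1 := pot_mem (Submodule.span ℝ (z '' ((G.erase p' : Finset ι) : Set ι)))
          (Submodule.span ℝ (z '' (G : Set ι)))
          (Submodule.span_mono (Set.image_mono (by exact_mod_cast Finset.erase_subset _ _))) (z p')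
          (Submodule.subset_span (Set.mem_image_of_mem z (by exact_mod_cast hp')))
          (1 - x p' ^ 2) (y k) (hz p' (Finset.mem_insert_of_mem hp')) hτ'.1 hτ'.2
        have h2 := pot_ge (Submodule.span ℝ (z '' (G : Set ι))) (z p) (1 - x p ^ 2) (y k) hzp hτ.1
        linarith

/-- The function `H` of the interior step is concave. -/
lemma H_concave (S : Submodule ℝ E) (zp : E) (hzp : ‖zp‖ ≤ 1) (y : κ → E) (hy : ∀ k, ‖y k‖ ≤ 1 / 4)
    (W : κ → ℝ) (hW : ∀ k, 0 ≤ W k) (xp : ℝ) :
    ConcaveOn ℝ (Set.Icc (-1 : ℝ) 1) (fun s => ∑ k, W k * Real.exp ((s - xp) * inner ℝ (zp - S.starProjection zp) (y k)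
      + 2 * Pot S zp (1 - s ^ 2) (y k))) := by
  have hk := kappa_ge S zp hzp
  have hk0 : 0 ≤ 1 - ‖S.starProjection zp‖ ^ 2 := le_trans (by positivity) hk
  have hk1 : 1 - ‖S.starProjection zp‖ ^ 2 ≤ 1 := by
    have : 0 ≤ ‖S.starProjection zp‖ ^ 2 := by positivity
    linarith
  have key : ∀ k, ConcaveOn ℝ (Set.Icc (-1 : ℝ) 1) (fun s => W k *
      Real.exp ((s - xp) * inner ℝ (zp - S.starProjection zp) (y k) + 2 * Pot S zp (1 - s ^ 2) (y k))) := by
    intro k
    set β : ℝ := inner ℝ (zp - S.starProjection zp) (y k) with hβ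
    set K : ℝ := 1 - ‖S.starProjection zp‖ ^ 2 with hK
    have hb : β ^ 2 ≤ K / 16 := by
      have h1 := beta_sq S zp (y k) hzp
      have h2 : ‖y k‖ ^ 2 ≤ 1 / 16 := by
        have := hy k
        have h0 := norm_nonneg (y k)
        nlinarith
      have h3 : K * ‖y k‖ ^ 2 ≤ K * (1 / 16) := mul_le_mul_of_nonneg_left h2 hk0
      rw [← hβ, ← hK] at h1
      linarith
    have hc := concave_term β (4 * (β ^ 2 / K)) (theta_bound β K hk0 hk1 hb) (by positivity)
    have hc2 := hc.smul (show 0 ≤ W k * Real.exp (-xp * β + 2 * ‖S.starProjection (y k)‖ ^ 2 + 2 * (β ^ 2 / K)) from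
      mul_nonneg (hW k) (Real.exp_pos _).le)
    refine hc2.congr ?_
    intro s _
    simp only [smul_eq_mul]
    rw [mul_assoc, ← Real.exp_add]
    congr 2
    unfold Pot
    rw [← hβ, ← hK]
    ring
  have hsum : ∀ T : Finset κ, ConcaveOn ℝ (Set.Icc (-1 : ℝ) 1) (fun s => ∑ k ∈ T, W k *
      Real.exp ((s - xp) * inner ℝ (zp - S.starProjection zp) (y k) + 2 * Pot S zp (1 - s ^ 2) (y k))) := by
    classical
    intro T
    induction T using Finset.induction_on with
    | empty =>
      simp only [Finset.sum_empty]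
      exact concaveOn_const _ (convex_Icc _ _)
    | insert a T ha ih =>
      have h1 := (key a).add ih
      refine h1.congr ?_
      intro s _
      simp only [Pi.add_apply]
      rw [Finset.sum_insert ha]
  exact hsum Finset.univ

/-- The interior step: one side. -/
lemma walk_move (z : ι → E) (y : κ → E) (G : Finset ι) (p : ι) (hp : p ∉ G) (β : ι → ℝ)
    (hβ : ∑ i ∈ G, β i • z i = (Submodule.span ℝ (z '' (G : Set ι))).starProjection (z p))
    (x : ι → ℝ) (u : ℝ) (W : κ → ℝ)
    (h : WalkGoal z y G p (fun i => x i + u * (if i = p then 1 else -β i))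
      (fun k => W k * Real.exp (u * inner ℝ (z p - (Submodule.span ℝ (z '' (G : Set ι))).starProjection (z p)) (y k)))) :
    ∃ ε : ι → ℝ, (∀ i ∈ insert p G, ε i = 1 ∨ ε i = -1) ∧
    ∑ k, W k * Real.exp (inner ℝ (∑ i ∈ insert p G, (ε i - x i) • z i) (y k)) ≤
      ∑ k, W k * Real.exp (((x p + u) - x p) *
        inner ℝ (z p - (Submodule.span ℝ (z '' (G : Set ι))).starProjection (z p)) (y k)
        + 2 * Pot (Submodule.span ℝ (z '' (G : Set ι))) (z p) (1 - (x p + u) ^ 2) (y k)) := by
  obtain ⟨ε, hε, hs⟩ := h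
  refine ⟨ε, hε, ?_⟩
  set S := Submodule.span ℝ (z '' (G : Set ι)) with hS
  have e0 : ∑ i ∈ insert p G, (u * (if i = p then 1 else -β i)) • z i = u • (z p - S.starProjection (z p)) := by
    rw [Finset.sum_insert hp, ← hβ]
    have : ∑ i ∈ G, (u * (if i = p then 1 else -β i)) • z i = -(u • ∑ i ∈ G, β i • z i) := by
      rw [Finset.smul_sum, ← Finset.sum_neg_distrib]
      apply Finset.sum_congr rfl
      intro i hi
      have : i ≠ p := fun h => hp (h ▸ hi)
      rw [if_neg this, smul_smul, ← neg_smul]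
      congr 1
      ring
    rw [this]
    simp only [if_true, mul_one]
    rw [smul_sub]
    abel
  have e1 : ∑ i ∈ insert p G, (ε i - x i) • z i =
      ∑ i ∈ insert p G, (ε i - (x i + u * (if i = p then 1 else -β i))) • z i +
        u • (z p - S.starProjection (z p)) := by
    rw [← e0, ← Finset.sum_add_distrib]
    apply Finset.sum_congr rfl
    intro i _
    rw [← add_smul]
    congr 1
    ring
  have e2 : ∀ k, W k * Real.exp (inner ℝ (∑ i ∈ insert p G, (ε i - x i) • z i) (y k)) =
      W k * Real.exp (u * inner ℝ (z p - S.starProjection (z p)) (y k)) *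
        Real.exp (inner ℝ (∑ i ∈ insert p G, (ε i - (x i + u * (if i = p then 1 else -β i))) • z i) (y k)) := by
    intro k
    rw [e1, inner_add_left, inner_smul_left, mul_assoc, ← Real.exp_add]
    congr 2
    simp only [conj_trivial]
    ring
  have e3 : ∀ k, W k * Real.exp (((x p + u) - x p) * inner ℝ (z p - S.starProjection (z p)) (y k)
        + 2 * Pot S (z p) (1 - (x p + u) ^ 2) (y k)) =
      W k * Real.exp (u * inner ℝ (z p - S.starProjection (z p)) (y k)) *
        Real.exp (2 * Pot S (z p) (1 - (x p + u) ^ 2) (y k)) := by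
    intro k
    rw [mul_assoc, ← Real.exp_add]
    congr 2
    ring
  simp only [e2, e3]
  refine hs.trans (le_of_eq ?_)
  apply Finset.sum_congr rfl
  intro k _
  simp only [if_true, mul_one]

theorem walk (z : ι → E) (y : κ → E) (hy : ∀ k, ‖y k‖ ≤ 1 / 4) : ∀ (n : ℕ) (G : Finset ι) (p : ι), G.card = n →
    p ∉ G → (∀ i ∈ insert p G, ‖z i‖ ≤ 1) → ∀ (x : ι → ℝ), (∀ i ∈ insert p G, |x i| ≤ 1) →
    ∀ W : κ → ℝ, (∀ k, 0 ≤ W k) → WalkGoal z y G p x W := by
  intro n
  induction n using Nat.strong_induction_on with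
  | _ n ih =>
    intro G p hn hp hz x hx W hW
    have hB := walk_boundary z y G p hp hz (fun G' p' hlt hp' hz' x' hx' W' hW' =>
      ih G'.card (hn ▸ hlt) G' p' rfl hp' hz' x' hx' W' hW')
    by_cases hb : ∃ i ∈ insert p G, |x i| = 1
    · exact hB x hx hb W hW
    · have hlt : ∀ i ∈ insert p G, |x i| < 1 := by
        intro i hi
        refine lt_of_le_of_ne (hx i hi) ?_
        intro h
        exact hb ⟨i, hi, h⟩
      have hmem : (Submodule.span ℝ (z '' (G : Set ι))).starProjection (z p) ∈ Submodule.span ℝ (z '' (G : Set ι)) :=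
        Submodule.starProjection_apply_mem _ _
      obtain ⟨β, hβ⟩ := Submodule.mem_span_image_finset_iff_exists_fun' ℝ |>.mp hmem
      set c : ι → ℝ := fun i => if i = p then 1 else -β i with hc
      have hcp : c p = 1 := by simp [hc]
      have hpF : p ∈ insert p G := Finset.mem_insert_self _ _
      obtain ⟨u, hu0, hu1, hu2⟩ := exists_boundary (insert p G) p hpF x c hlt (by rw [hcp]; simp)
      obtain ⟨t, ht0, ht1, ht2⟩ := exists_boundary (insert p G) p hpF x (fun i => - c i) hlt
        (by simp [hcp])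
      have hxp := hlt p hpF
      have hmv1 := walk_move z y G p hp β hβ x u W (hB _ hu1 hu2 _ (fun k => mul_nonneg (hW k) (Real.exp_pos _).le))
      have ht1' : ∀ i ∈ insert p G, |x i + (-t) * c i| ≤ 1 := by
        intro i hi
        have := ht1 i hi
        rw [show x i + -t * c i = x i + t * -c i by ring]
        exact this
      have ht2' : ∃ i ∈ insert p G, |x i + (-t) * c i| = 1 := by
        obtain ⟨i, hi, h⟩ := ht2
        refine ⟨i, hi, ?_⟩
        rw [show x i + -t * c i = x i + t * -c i by ring]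
        exact h
      have hmv2 := walk_move z y G p hp β hβ x (-t) W
        (hB _ ht1' ht2' _ (fun k => mul_nonneg (hW k) (Real.exp_pos _).le))
      have hconc := H_concave (Submodule.span ℝ (z '' (G : Set ι))) (z p) (hz p hpF) y hy W hW (x p)
      have hu1p := hu1 p hpF
      have ht1p := ht1' p hpF
      rw [hcp, mul_one] at hu1p ht1p
      have hmin := hconc.min_le_of_mem_Icc (x := x p + -t) (y := x p + u) (z := x p)
        (abs_le.mp ht1p) (abs_le.mp hu1p) ⟨by linarith, by linarith⟩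
      have efin : ∑ k, W k * Real.exp ((x p - x p) *
          inner ℝ (z p - (Submodule.span ℝ (z '' (G : Set ι))).starProjection (z p)) (y k)
          + 2 * Pot (Submodule.span ℝ (z '' (G : Set ι))) (z p) (1 - x p ^ 2) (y k)) =
          ∑ k, W k * Real.exp (2 * Pot (Submodule.span ℝ (z '' (G : Set ι))) (z p) (1 - x p ^ 2) (y k)) := by
        simp
      rw [efin] at hmin
      rcases min_le_iff.mp hmin with h | h
      · obtain ⟨ε, hε, hs⟩ := hmv2
        exact ⟨ε, hε, hs.trans h⟩
      · obtain ⟨ε, hε, hs⟩ := hmv1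
        exact ⟨ε, hε, hs.trans h⟩

end Walk

/-- The rounding lemma. -/
theorem rounding : RoundingStatement := by
  intro ι κ _ _ _ E _ _ _ F z hz x hx y hy W hW
  rcases F.eq_empty_or_nonempty with hF | ⟨p, hp⟩
  · subst hF
    refine ⟨fun _ => 1, by simp, ?_⟩
    simp only [Finset.sum_empty, inner_zero_left, Real.exp_zero, mul_one]
    have h1 : (1 : ℝ) ≤ Real.exp (1 / 8) := Real.one_le_exp (by norm_num)
    have h2 : 0 ≤ ∑ k, W k := Finset.sum_nonneg (fun k _ => hW k)
    nlinarith
  · have hins : insert p (F.erase p) = F := Finset.insert_erase hp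
    have := walk z y hy (F.erase p).card (F.erase p) p rfl (Finset.notMem_erase _ _)
      (by rw [hins]; exact hz) x (by rw [hins]; exact hx) W hW
    obtain ⟨ε, hε, hs⟩ := this
    rw [hins] at hε hs
    refine ⟨ε, hε, hs.trans ?_⟩
    rw [Finset.mul_sum]
    apply Finset.sum_le_sum
    intro k _
    rw [mul_comm]
    apply mul_le_mul_of_nonneg_right _ (hW k)
    apply Real.exp_le_exp.mpr
    have hτ := tau_mem (hx p hp)
    have h1 := pot_le (Submodule.span ℝ (z '' ((F.erase p : Finset ι) : Set ι))) (z p) (1 - x p ^ 2) (y k)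
      (hz p hp) hτ.1 hτ.2
    have h2 : ‖y k‖ ^ 2 ≤ 1 / 16 := by
      have := hy k
      have h0 := norm_nonneg (y k)
      nlinarith
    linarith

end Vale.Agent.P262
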