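import Mathlib
import Vale.Agent.P262.Defs
import Vale.Agent.P262.Consts
import Vale.Agent.P262.Rec2
import Vale.Agent.P262.Rounding
import Vale.Agent.P262.LamBound

namespace Vale.Agent.P262

open scoped BigOperators

/-- Covariance operator. -/
noncomputable def cov {d N : ℕ} (v : Fin N → EuclideanSpace ℝ (Fin d)) :
    EuclideanSpace ℝ (Fin d) →ₗ[ℝ] EuclideanSpace ℝ (Fin d) :=
  ∑ i, (innerₗ (EuclideanSpace ℝ (Fin d)) (v i)).smulRight (v i)

lemma cov_apply {d N : ℕ} (v : Fin N → EuclideanSpace ℝ (Fin d)) (x : EuclideanSpace ℝ (Fin d)) :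
    cov v x = ∑ i, (inner ℝ (v i) x) • v i := by
  simp [cov, LinearMap.sum_apply]

lemma inner_cov {d N : ℕ} (v : Fin N → EuclideanSpace ℝ (Fin d)) (x y : EuclideanSpace ℝ (Fin d)) :
    inner ℝ x (cov v y) = ∑ i, inner ℝ x (v i) * inner ℝ y (v i) := by
  rw [cov_apply, inner_sum]
  apply Finset.sum_congr rfl
  intro i _
  rw [inner_smul_right, real_inner_comm y (v i)]
  ring

lemma cov_symm {d N : ℕ} (v : Fin N → EuclideanSpace ℝ (Fin d)) : (cov v).IsSymmetric := by
  intro x y
  rw [real_inner_comm, inner_cov, inner_cov]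
  apply Finset.sum_congr rfl
  intro i _
  ring

/-- The list version of the upper bound. -/
theorem exists_list {d N : ℕ} (hd : 1 ≤ d) (v : Fin N → EuclideanSpace ℝ (Fin d)) (hv : ∀ i, ‖v i‖ ≤ 1)
    (hs : ∑ i, v i = 0) :
    ∃ L : List (Fin N), L.Nodup ∧ (∀ i, i ∈ L) ∧ ∀ m : ℕ, ‖((L.take m).map v).sum‖ ≤ Real.sqrt d * Lam d := by
  classical
  have hfin : Module.finrank ℝ (EuclideanSpace ℝ (Fin d)) = d := by simp
  set b := (cov_symm v).eigenvectorBasis hfin with hb
  set α := (cov_symm v).eigenvalues hfin with hα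
  have hT : ∀ k, cov v (b k) = α k • b k := by
    intro k
    exact (cov_symm v).apply_eigenvectorBasis hfin k
  have hcov : ∀ j k, ∑ i, inner ℝ (b j) (v i) * inner ℝ (b k) (v i) = if j = k then α j else (0 : ℝ) := by
    intro j k
    rw [← inner_cov, hT, inner_smul_right]
    by_cases h : j = k
    · subst h
      rw [if_pos rfl]
      have : inner ℝ (b j) (b j) = (1 : ℝ) := by
        rw [real_inner_self_eq_norm_sq, b.norm_eq_one]
        norm_num
      rw [this, mul_one]
    · rw [if_neg h]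
      have : inner ℝ (b j) (b k) = (0 : ℝ) := b.inner_eq_zero h
      rw [this, mul_zero]
  have hnorm : ∀ x, ∑ j, (inner ℝ (b j) x) ^ 2 = ‖x‖ ^ 2 := by
    intro x
    have := b.sum_sq_norm_inner_right x
    rw [← this]
    apply Finset.sum_congr rfl
    intro j _
    rw [Real.norm_eq_abs, sq_abs]
  obtain ⟨L, hL1, hL2, hL3⟩ := core_of_rounding rounding d hd (fun i j => inner ℝ (b j) (v i))
    (fun i => by
      rw [hnorm]
      have := hv i
      have h0 := norm_nonneg (v i)
      nlinarith) α hcov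
    (fun j => by
      rw [← inner_sum, hs, inner_zero_right])
  refine ⟨L, hL1, hL2, ?_⟩
  intro m
  set s := ((L.take m).map v).sum with hsdef
  have hcoord : ∀ j, ((L.take m).map (fun i => inner ℝ (b j) (v i))).sum = inner ℝ (b j) s := by
    intro j
    rw [hsdef]
    induction (L.take m) with
    | nil => simp
    | cons a l ih => simp [inner_add_right, ih]
  have hLam0 : 0 ≤ Lam d := by
    have := hL3 0 ⟨0, by omega⟩
    exact le_trans (abs_nonneg _) this
  have h1 : ‖s‖ ^ 2 ≤ (Real.sqrt d * Lam d) ^ 2 := by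
    rw [← hnorm, mul_pow, Real.sq_sqrt (by positivity)]
    calc ∑ j, (inner ℝ (b j) s) ^ 2 ≤ ∑ _j : Fin d, (Lam d) ^ 2 := by
          apply Finset.sum_le_sum
          intro j _
          have := hL3 m j
          rw [hcoord j] at this
          rw [← sq_abs]
          exact pow_le_pow_left₀ (abs_nonneg _) this 2
      _ = d * (Lam d) ^ 2 := by simp
  exact le_of_pow_le_pow_left₀ (two_ne_zero) (by positivity) h1

lemma prefixMax_le {d N : ℕ} (hd : 1 ≤ d) (v : Fin N → EuclideanSpace ℝ (Fin d)) (hv : ∀ i, ‖v i‖ ≤ 1)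
    (hs : ∑ i, v i = 0) : ∃ π : Equiv.Perm (Fin N), prefixMax v π ≤ Real.sqrt d * Lam d := by
  classical
  obtain ⟨L, hL1, hL2, hL3⟩ := exists_list hd v hv hs
  have hlen : L.length = N := by
    have h1 : L.toFinset = Finset.univ := by
      ext i
      simp [hL2 i]
    have h2 := List.toFinset_card_of_nodup hL1
    rw [h1] at h2
    simpa using h2.symm
  let e : Fin L.length ≃ Fin N := hL1.getEquivOfForallMemList L hL2
  let π : Equiv.Perm (Fin N) := (finCongr hlen.symm).trans e
  refine ⟨π, ?_⟩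
  apply ciSup_le
  intro k
  have hk : (k : ℕ) ≤ L.length := by rw [hlen]; exact Nat.lt_succ_iff.mp k.2
  have key : ∑ i ∈ Finset.univ.filter (fun i : Fin N => (i : ℕ) < (k : ℕ)), v (π i) = ((L.take k).map v).sum := by
    have h1 : ((L.take k).map v).sum = ∑ i : Fin (L.take k).length, v ((L.take k).get i) := by
      rw [← List.sum_ofFn]
      congr 1
      apply List.ext_get
      · simp
      · intro n h1 h2
        simp
    rw [h1]
    symm
    have hlt : (L.take k).length = k := by simp [hk]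
    apply Finset.sum_bij (fun (i : Fin (L.take k).length) _ => (⟨i, lt_of_lt_of_le (lt_of_lt_of_eq i.2 hlt)
      (le_of_le_of_eq hk hlen)⟩ : Fin N))
    · intro i _
      simp only [Finset.mem_filter, Finset.mem_univ, true_and]
      exact lt_of_lt_of_eq i.2 hlt
    · intro i _ j _ h
      simp only [Fin.mk.injEq] at h
      exact Fin.ext h
    · intro i hi
      simp only [Finset.mem_filter, Finset.mem_univ, true_and] at hi
      exact ⟨⟨i, by rw [hlt]; exact hi⟩, Finset.mem_univ _, rfl⟩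
    · intro i _
      simp [π, e]
  rw [key]
  exact hL3 k

lemma prefixMax_nonneg {d N : ℕ} (v : Fin N → EuclideanSpace ℝ (Fin d)) (π : Equiv.Perm (Fin N)) :
    0 ≤ prefixMax v π := Real.iSup_nonneg (fun _ => norm_nonneg _)

theorem beta_le {d N : ℕ} (hd : 1 ≤ d) (v : Fin N → EuclideanSpace ℝ (Fin d)) (hv : ∀ i, ‖v i‖ ≤ 1)
    (hs : ∑ i, v i = 0) : beta v ≤ Real.sqrt d * Lam d := by
  obtain ⟨π, hπ⟩ := prefixMax_le hd v hv hs
  refine le_trans ?_ hπ
  exact ciInf_le (Set.finite_range _).bddBelow π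

theorem betaSet_bdd (d : ℕ) (hd : 1 ≤ d) : BddAbove (betaSet d) := by
  refine ⟨Real.sqrt d * Lam d, ?_⟩
  rintro x ⟨N, v, hv, hs, rfl⟩
  exact beta_le hd v hv hs

theorem betaSet_nonempty (d : ℕ) : (betaSet d).Nonempty :=
  ⟨_, 0, fun i => i.elim0, fun i => i.elim0, by simp, rfl⟩

theorem S2_le (d : ℕ) (hd : 1 ≤ d) : S2 d ≤ Real.sqrt d * Lam d := by
  apply csSup_le (betaSet_nonempty d)
  rintro x ⟨N, v, hv, hs, rfl⟩
  exact beta_le hd v hv hs

end Vale.Agent.P262
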